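import Mathlib

namespace Vale.Agent.Lib.P141

open MeasureTheory Filter Topology
open scoped ENNReal

/-- Truncated trilinear Hilbert transform with slopes 1, 2, 3:
the integral over `ε < |t| < R` of `f₁(x - t) f₂(x - 2t) f₃(x - 3t) / t`. -/
noncomputable def truncTHT (ε R : ℝ) (f₁ f₂ f₃ : ℝ → ℂ) (x : ℝ) : ℂ :=
  ∫ t in {t : ℝ | ε < |t| ∧ |t| < R}, f₁ (x - t) * f₂ (x - 2 * t) * f₃ (x - 3 * t) / (t : ℂ)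

/-- The trilinear Hilbert transform: the principal value, i.e. the limit of the
truncations as `ε → 0+` and `R → +∞`. -/
noncomputable def THT (f₁ f₂ f₃ : ℝ → ℂ) (x : ℝ) : ℂ :=
  limUnder ((𝓝[>] (0 : ℝ)) ×ˢ (atTop : Filter ℝ))
    (fun q : ℝ × ℝ => truncTHT q.1 q.2 f₁ f₂ f₃ x)

/-- Hölder tuples `(p₁, p₂, p₃, r)`: `1 < pᵢ ≤ ∞`, `0 < r < ∞`, `1/r = 1/p₁ + 1/p₂ + 1/p₃`. -/
def IsHolderTuple (p₁ p₂ p₃ r : ℝ≥0∞) : Prop :=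
  1 < p₁ ∧ 1 < p₂ ∧ 1 < p₃ ∧ 0 < r ∧ r < ⊤ ∧ r⁻¹ = p₁⁻¹ + p₂⁻¹ + p₃⁻¹

/-- `T` is bounded at `(p₁, p₂, p₃, r)`: there is a finite constant `C` with
`‖T(f₁,f₂,f₃)‖_{L^r} ≤ C ‖f₁‖_{L^{p₁}} ‖f₂‖_{L^{p₂}} ‖f₃‖_{L^{p₃}}` for all Schwartz `f₁, f₂, f₃`. -/
def BoundedAt (p₁ p₂ p₃ r : ℝ≥0∞) : Prop :=
  ∃ C : NNReal, ∀ f₁ f₂ f₃ : SchwartzMap ℝ ℂ,
    eLpNorm (THT f₁ f₂ f₃) r volume ≤
      (C : ℝ≥0∞) * (eLpNorm f₁ p₁ volume * eLpNorm f₂ p₂ volume * eLpNorm f₃ p₃ volume)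

end Vale.Agent.Lib.P141
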