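import Mathlib
import Vale.Agent.Lib.P141.Defs

namespace Vale.Agent.Lib.P141

open MeasureTheory Filter Topology
open scoped ENNReal

/-- a smooth bump equal to 1 on [1/4, 3/4] and supported in (0, 1) -/
noncomputable def psi : ContDiffBump (1/2 : ℝ) := ⟨1/4, 1/2, by norm_num, by norm_num⟩

theorem psi_eq_one {x : ℝ} (h1 : 1/4 ≤ x) (h2 : x ≤ 3/4) : psi x = 1 := by
  apply psi.one_of_mem_closedBall
  rw [Metric.mem_closedBall, Real.dist_eq]
  show |x - 1/2| ≤ 1/4
  rw [abs_le]; constructor <;> linarith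

theorem psi_ne_zero {x : ℝ} (h : psi x ≠ 0) : 0 < x ∧ x < 1 := by
  have h' : x ∈ Function.support psi := h
  rw [psi.support_eq, Metric.mem_ball, Real.dist_eq] at h'
  have h'' : |x - 1/2| < 1/2 := h'
  rw [abs_lt] at h''; constructor <;> linarith

/-- sum of integer translates of the bump -/
noncomputable def bumpSum (S : Finset ℤ) (u : ℝ) : ℝ := ∑ a ∈ S, psi (u - a)

theorem bumpSum_nonneg (S : Finset ℤ) (u : ℝ) : 0 ≤ bumpSum S u :=
  Finset.sum_nonneg fun _ _ => psi.nonneg

theorem bumpSum_ne_zero {S : Finset ℤ} {u : ℝ} (h : bumpSum S u ≠ 0) :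
    ∃ a ∈ S, (a : ℝ) < u ∧ u < a + 1 := by
  by_contra hcon
  push Not at hcon
  apply h
  apply Finset.sum_eq_zero
  intro a ha
  by_contra hne
  have := psi_ne_zero hne
  have h2 := hcon a ha (by linarith)
  linarith

theorem bumpSum_le_one (S : Finset ℤ) (u : ℝ) : bumpSum S u ≤ 1 := by
  by_cases h : ∃ a ∈ S, psi (u - a) ≠ 0
  · obtain ⟨a0, ha0, hne⟩ := h
    have h0 := psi_ne_zero hne
    have : bumpSum S u = psi (u - a0) := by
      apply Finset.sum_eq_single a0
      · intro b _ hb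
        by_contra hne'
        have h1 := psi_ne_zero hne'
        apply hb
        have e1 : (b : ℝ) < a0 + 1 := by linarith
        have e2 : (a0 : ℝ) < b + 1 := by linarith
        have e1' : b < a0 + 1 := by exact_mod_cast e1
        have e2' : a0 < b + 1 := by exact_mod_cast e2
        omega
      · intro hh; exact absurd ha0 hh
    rw [this]; exact psi.le_one
  · push Not at h
    have : bumpSum S u = 0 := Finset.sum_eq_zero h
    rw [this]; exact zero_le_one

theorem one_le_bumpSum {S : Finset ℤ} {a : ℤ} (ha : a ∈ S) {u : ℝ}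
    (h1 : (a : ℝ) + 1/4 ≤ u) (h2 : u ≤ a + 3/4) : 1 ≤ bumpSum S u := by
  have : psi (u - a) = 1 := psi_eq_one (by linarith) (by linarith)
  calc (1 : ℝ) = psi (u - a) := this.symm
    _ ≤ bumpSum S u := Finset.single_le_sum (f := fun b : ℤ => psi (u - b))
        (fun _ _ => psi.nonneg) ha

theorem contDiff_bumpSum (S : Finset ℤ) : ContDiff ℝ (⊤ : ℕ∞) (bumpSum S) := by
  unfold bumpSum
  apply ContDiff.sum
  intro a _
  exact psi.contDiff.comp (contDiff_id.sub contDiff_const)

theorem continuous_bumpSum (S : Finset ℤ) : Continuous (bumpSum S) :=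
  (contDiff_bumpSum S).continuous

theorem hasCompactSupport_bumpSum (S : Finset ℤ) : HasCompactSupport (bumpSum S) := by
  unfold bumpSum
  induction S using Finset.induction_on with
  | empty =>
    simp only [Finset.sum_empty]
    exact HasCompactSupport.zero
  | insert a s ha ih =>
    have h1 : HasCompactSupport (fun u : ℝ => psi (u - a)) :=
      psi.hasCompactSupport.comp_homeomorph (Homeomorph.subRight (a : ℝ))
    simp only [Finset.sum_insert ha]
    exact h1.add ih

/-- the complex-valued test function -/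
noncomputable def bumpC (S : Finset ℤ) : ℝ → ℂ := fun u => ((bumpSum S u : ℝ) : ℂ)

theorem contDiff_bumpC (S : Finset ℤ) : ContDiff ℝ (⊤ : ℕ∞) (bumpC S) :=
  Complex.ofRealCLM.contDiff.comp (contDiff_bumpSum S)

theorem hasCompactSupport_bumpC (S : Finset ℤ) : HasCompactSupport (bumpC S) :=
  (hasCompactSupport_bumpSum S).comp_left Complex.ofReal_zero

/-- the Schwartz test function -/
noncomputable def bumpS (S : Finset ℤ) : SchwartzMap ℝ ℂ :=
  (hasCompactSupport_bumpC S).toSchwartzMap (contDiff_bumpC S)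

theorem bumpS_apply (S : Finset ℤ) (u : ℝ) : bumpS S u = ((bumpSum S u : ℝ) : ℂ) := rfl

theorem norm_bumpS_le (S : Finset ℤ) (u : ℝ) : ‖bumpS S u‖ ≤ 1 := by
  rw [bumpS_apply, Complex.norm_real, Real.norm_eq_abs, abs_of_nonneg (bumpSum_nonneg S u)]
  exact bumpSum_le_one S u

theorem eLpNorm_bumpS_le (S : Finset ℤ) (p : ℝ≥0∞) :
    eLpNorm (bumpS S) p volume ≤ (S.card : ℝ≥0∞) ^ p.toReal⁻¹ := by
  set U : Set ℝ := ⋃ a ∈ S, Set.Ioo (a : ℝ) (a + 1) with hU
  have hsupp : Function.support (bumpS S) ⊆ U := by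
    intro u hu
    have hu' : bumpS S u ≠ 0 := hu
    rw [bumpS_apply] at hu'
    have hu'' : bumpSum S u ≠ 0 := fun h => hu' (by rw [h]; simp)
    obtain ⟨a, ha, h1, h2⟩ := bumpSum_ne_zero hu''
    simp only [hU, Set.mem_iUnion, Set.mem_Ioo]
    exact ⟨a, ha, h1, h2⟩
  have hvol : volume U ≤ (S.card : ℝ≥0∞) := by
    calc volume U ≤ ∑ a ∈ S, volume (Set.Ioo (a : ℝ) (a + 1)) := measure_biUnion_finset_le S _
      _ = ∑ a ∈ S, (1 : ℝ≥0∞) := by
          apply Finset.sum_congr rfl
          intro a _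
          rw [Real.volume_Ioo]; simp
      _ = (S.card : ℝ≥0∞) := by simp
  calc eLpNorm (bumpS S) p volume = eLpNorm (bumpS S) p (volume.restrict U) :=
        (eLpNorm_restrict_eq_of_support_subset hsupp).symm
    _ ≤ (volume.restrict U) Set.univ ^ p.toReal⁻¹ * ENNReal.ofReal 1 :=
        eLpNorm_le_of_ae_bound (Filter.Eventually.of_forall (norm_bumpS_le S))
    _ = (volume U) ^ p.toReal⁻¹ := by simp
    _ ≤ (S.card : ℝ≥0∞) ^ p.toReal⁻¹ :=
        ENNReal.rpow_le_rpow hvol (inv_nonneg.mpr ENNReal.toReal_nonneg)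

end Vale.Agent.Lib.P141
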