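import Mathlib
import Vale.Agent.Lib.P141.Bump

namespace Vale.Agent.Lib.P141

open MeasureTheory Filter Topology
open scoped ENNReal

/-- the real integrand of the trilinear Hilbert transform of the three bump sums -/
noncomputable def gInt (S1 S2 S3 : Finset ℤ) (x t : ℝ) : ℝ :=
  bumpSum S1 (x - t) * bumpSum S2 (x - 2 * t) * bumpSum S3 (x - 3 * t) / t

section

variable {S1 S2 S3 : Finset ℤ} {L : ℝ}

theorem t_range (hsep : ∀ a ∈ S1, ∀ b ∈ S2, (2 : ℝ) ≤ (a : ℝ) - b ∧ (a : ℝ) - b + 1 ≤ L)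
    {x t : ℝ} (h1 : bumpSum S1 (x - t) ≠ 0) (h2 : bumpSum S2 (x - 2 * t) ≠ 0) :
    1 < t ∧ t < L := by
  obtain ⟨a, ha, ha1, ha2⟩ := bumpSum_ne_zero h1
  obtain ⟨b, hb, hb1, hb2⟩ := bumpSum_ne_zero h2
  obtain ⟨e1, e2⟩ := hsep a ha b hb
  constructor <;> linarith

theorem gInt_ne_zero (hsep : ∀ a ∈ S1, ∀ b ∈ S2, (2 : ℝ) ≤ (a : ℝ) - b ∧ (a : ℝ) - b + 1 ≤ L)
    {x t : ℝ} (h : gInt S1 S2 S3 x t ≠ 0) : 1 < t ∧ t < L := by
  unfold gInt at h
  have h' := (div_ne_zero_iff.mp h).1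
  have h'' := mul_ne_zero_iff.mp h'
  have h3 := mul_ne_zero_iff.mp h''.1
  exact t_range hsep h3.1 h3.2

theorem gInt_nonneg (hsep : ∀ a ∈ S1, ∀ b ∈ S2, (2 : ℝ) ≤ (a : ℝ) - b ∧ (a : ℝ) - b + 1 ≤ L)
    (x t : ℝ) : 0 ≤ gInt S1 S2 S3 x t := by
  by_cases h : gInt S1 S2 S3 x t = 0
  · rw [h]
  · have := (gInt_ne_zero hsep h).1
    unfold gInt
    apply div_nonneg
    · exact mul_nonneg (mul_nonneg (bumpSum_nonneg _ _) (bumpSum_nonneg _ _))
        (bumpSum_nonneg _ _)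
    · linarith

theorem gInt_le_indicator
    (hsep : ∀ a ∈ S1, ∀ b ∈ S2, (2 : ℝ) ≤ (a : ℝ) - b ∧ (a : ℝ) - b + 1 ≤ L) (x t : ℝ) :
    ‖gInt S1 S2 S3 x t‖ ≤ Set.indicator (Set.Icc (1 : ℝ) L) (fun _ => (1 : ℝ)) t := by
  by_cases h : gInt S1 S2 S3 x t = 0
  · rw [h, norm_zero]; exact Set.indicator_nonneg (fun _ _ => zero_le_one) _
  · obtain ⟨h1, h2⟩ := gInt_ne_zero hsep h
    rw [Set.indicator_of_mem (Set.mem_Icc.mpr ⟨h1.le, h2.le⟩), Real.norm_eq_abs,
      abs_of_nonneg (gInt_nonneg hsep x t)]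
    unfold gInt
    rw [div_le_one (by linarith)]
    have a1 := bumpSum_le_one S1 (x - t)
    have a2 := bumpSum_le_one S2 (x - 2 * t)
    have a3 := bumpSum_le_one S3 (x - 3 * t)
    have b1 := bumpSum_nonneg S1 (x - t)
    have b2 := bumpSum_nonneg S2 (x - 2 * t)
    have b3 := bumpSum_nonneg S3 (x - 3 * t)
    calc bumpSum S1 (x - t) * bumpSum S2 (x - 2 * t) * bumpSum S3 (x - 3 * t)
        ≤ 1 * 1 * 1 := by gcongr
      _ ≤ t := by linarith

theorem measurable_gInt (x : ℝ) : Measurable (gInt S1 S2 S3 x) := by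
  unfold gInt
  have h1 : Continuous (fun t : ℝ => bumpSum S1 (x - t)) :=
    (continuous_bumpSum S1).comp (by fun_prop)
  have h2 : Continuous (fun t : ℝ => bumpSum S2 (x - 2 * t)) :=
    (continuous_bumpSum S2).comp (by fun_prop)
  have h3 : Continuous (fun t : ℝ => bumpSum S3 (x - 3 * t)) :=
    (continuous_bumpSum S3).comp (by fun_prop)
  exact ((h1.measurable.mul h2.measurable).mul h3.measurable).div measurable_id

theorem integrable_gInt
    (hsep : ∀ a ∈ S1, ∀ b ∈ S2, (2 : ℝ) ≤ (a : ℝ) - b ∧ (a : ℝ) - b + 1 ≤ L) (x : ℝ) :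
    Integrable (gInt S1 S2 S3 x) := by
  refine Integrable.mono' (g := Set.indicator (Set.Icc (1 : ℝ) L) (fun _ => (1 : ℝ))) ?_
    (measurable_gInt x).aestronglyMeasurable (Eventually.of_forall (gInt_le_indicator hsep x))
  rw [integrable_indicator_iff measurableSet_Icc]
  exact integrableOn_const (by simp)

theorem THT_bump_eq
    (hsep : ∀ a ∈ S1, ∀ b ∈ S2, (2 : ℝ) ≤ (a : ℝ) - b ∧ (a : ℝ) - b + 1 ≤ L) (x : ℝ) :
    THT (bumpS S1) (bumpS S2) (bumpS S3) x = ((∫ t, gInt S1 S2 S3 x t : ℝ) : ℂ) := by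
  unfold THT
  apply Tendsto.limUnder_eq
  apply tendsto_const_nhds.congr'
  have hev : ∀ᶠ q : ℝ × ℝ in (𝓝[>] (0 : ℝ)) ×ˢ (atTop : Filter ℝ), q.1 ≤ 1 ∧ L ≤ q.2 :=
    ((eventually_le_nhds zero_lt_one).filter_mono nhdsWithin_le_nhds).prod_mk
      (eventually_ge_atTop L)
  filter_upwards [hev] with q hq
  unfold truncTHT
  have hint : ∀ t : ℝ, bumpS S1 (x - t) * bumpS S2 (x - 2 * t) * bumpS S3 (x - 3 * t) / (t : ℂ)
      = ((gInt S1 S2 S3 x t : ℝ) : ℂ) := by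
    intro t
    simp only [bumpS_apply, gInt]
    push_cast
    ring
  simp only [hint]
  rw [setIntegral_eq_integral_of_forall_compl_eq_zero]
  · exact integral_ofReal.symm
  · intro t ht
    by_contra hne
    have hne' : gInt S1 S2 S3 x t ≠ 0 := fun h => hne (by rw [h]; simp)
    obtain ⟨h1, h2⟩ := gInt_ne_zero hsep hne'
    apply ht
    show q.1 < |t| ∧ |t| < q.2
    rw [abs_of_pos (by linarith)]
    constructor <;> linarith

theorem integral_gInt_ge
    (hsep : ∀ a ∈ S1, ∀ b ∈ S2, (2 : ℝ) ≤ (a : ℝ) - b ∧ (a : ℝ) - b + 1 ≤ L)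
    {x0 t0 : ℤ} (h1 : x0 - t0 ∈ S1) (h2 : x0 - 2 * t0 ∈ S2) (h3 : x0 - 3 * t0 ∈ S3)
    {x : ℝ} (hx1 : (x0 : ℝ) + 5/8 ≤ x) (hx2 : x ≤ x0 + 3/4) :
    1 / (8 * L) ≤ ∫ t, gInt S1 S2 S3 x t := by
  have hL : 3 ≤ L := by
    obtain ⟨e1, e2⟩ := hsep _ h1 _ h2
    linarith
  have key : ∀ t ∈ Set.Icc (t0 : ℝ) (t0 + 1/8), 1 / L ≤ gInt S1 S2 S3 x t := by
    intro t ht
    obtain ⟨ht1, ht2⟩ := ht
    have b1 : 1 ≤ bumpSum S1 (x - t) :=
      one_le_bumpSum h1 (by push_cast; linarith) (by push_cast; linarith)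
    have b2 : 1 ≤ bumpSum S2 (x - 2 * t) :=
      one_le_bumpSum h2 (by push_cast; linarith) (by push_cast; linarith)
    have b3 : 1 ≤ bumpSum S3 (x - 3 * t) :=
      one_le_bumpSum h3 (by push_cast; linarith) (by push_cast; linarith)
    obtain ⟨r1, r2⟩ := t_range hsep (x := x) (t := t) (by linarith) (by linarith)
    unfold gInt
    have hnum : 1 ≤ bumpSum S1 (x - t) * bumpSum S2 (x - 2 * t) * bumpSum S3 (x - 3 * t) := by
      calc (1 : ℝ) = 1 * 1 * 1 := by norm_num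
        _ ≤ _ := by gcongr
    calc 1 / L ≤ 1 / t := one_div_le_one_div_of_le (by linarith) r2.le
      _ ≤ _ := div_le_div_of_nonneg_right hnum (by linarith)
  calc 1 / (8 * L) = ∫ t, Set.indicator (Set.Icc (t0 : ℝ) (t0 + 1/8)) (fun _ => 1 / L) t := by
        rw [integral_indicator measurableSet_Icc, setIntegral_const]
        simp only [Measure.real, Real.volume_Icc, smul_eq_mul]
        rw [ENNReal.toReal_ofReal (by linarith)]
        field_simp
        ring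
    _ ≤ ∫ t, gInt S1 S2 S3 x t := by
        apply integral_mono_of_nonneg
        · exact Eventually.of_forall
            (fun t => Set.indicator_nonneg (fun _ _ => by positivity) t)
        · exact integrable_gInt hsep x
        · refine Eventually.of_forall (fun t => ?_)
          by_cases ht : t ∈ Set.Icc (t0 : ℝ) (t0 + 1/8)
          · simp only [Set.indicator_of_mem ht]; exact key t ht
          · simp only [Set.indicator_of_notMem ht]; exact gInt_nonneg hsep x t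

theorem eLpNorm_THT_ge
    (hsep : ∀ a ∈ S1, ∀ b ∈ S2, (2 : ℝ) ≤ (a : ℝ) - b ∧ (a : ℝ) - b + 1 ≤ L)
    (Q : Finset ℤ)
    (hQ : ∀ x0 ∈ Q, ∃ t0 : ℤ, x0 - t0 ∈ S1 ∧ x0 - 2 * t0 ∈ S2 ∧ x0 - 3 * t0 ∈ S3)
    (r : ℝ≥0∞) (hr0 : r ≠ 0) (hrtop : r ≠ ⊤) :
    ENNReal.ofReal (1 / (8 * L)) * ((Q.card : ℝ≥0∞) * ENNReal.ofReal (1/8)) ^ (1 / r.toReal)
      ≤ eLpNorm (THT (bumpS S1) (bumpS S2) (bumpS S3)) r volume := by
  set A : Set ℝ := ⋃ x0 ∈ Q, Set.Icc ((x0 : ℝ) + 5/8) (x0 + 3/4) with hA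
  have hAmeas : MeasurableSet A :=
    Finset.measurableSet_biUnion _ (fun _ _ => measurableSet_Icc)
  have hvol : volume A = (Q.card : ℝ≥0∞) * ENNReal.ofReal (1/8) := by
    rw [hA, measure_biUnion_finset]
    · have : ∀ x0 ∈ Q, volume (Set.Icc ((x0 : ℝ) + 5/8) (x0 + 3/4)) = ENNReal.ofReal (1/8) := by
        intro x0 _
        rw [Real.volume_Icc]
        congr 1
        ring
      rw [Finset.sum_congr rfl this]
      simp
    · intro i _ j _ hij
      rw [Function.onFun, Set.disjoint_left]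
      intro y hy hy'
      obtain ⟨y1, y2⟩ := hy
      obtain ⟨y3, y4⟩ := hy'
      apply hij
      have e1 : (i : ℝ) < j + 1 := by linarith
      have e2 : (j : ℝ) < i + 1 := by linarith
      have e1' : i < j + 1 := by exact_mod_cast e1
      have e2' : j < i + 1 := by exact_mod_cast e2
      omega
    · intro _ _
      exact measurableSet_Icc
  have hpt : ∀ x, ‖A.indicator (fun _ => (((1 / (8 * L) : ℝ)) : ℂ)) x‖
      ≤ ‖THT (bumpS S1) (bumpS S2) (bumpS S3) x‖ := by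
    intro x
    by_cases hx : x ∈ A
    · rw [Set.indicator_of_mem hx, THT_bump_eq hsep x, Complex.norm_real, Complex.norm_real]
      simp only [hA, Set.mem_iUnion, Set.mem_Icc] at hx
      obtain ⟨x0, hx0, hx1, hx2⟩ := hx
      obtain ⟨t0, h1, h2, h3⟩ := hQ x0 hx0
      have hge := integral_gInt_ge hsep h1 h2 h3 hx1 hx2
      have hL : 3 ≤ L := by
        obtain ⟨e1, e2⟩ := hsep _ h1 _ h2
        linarith
      rw [Real.norm_eq_abs, Real.norm_eq_abs, abs_of_nonneg (by positivity)]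
      exact hge.trans (le_abs_self _)
    · rw [Set.indicator_of_notMem hx, norm_zero]; exact norm_nonneg _
  calc ENNReal.ofReal (1 / (8 * L)) * ((Q.card : ℝ≥0∞) * ENNReal.ofReal (1/8)) ^ (1 / r.toReal)
      ≤ ‖(((1 / (8 * L) : ℝ)) : ℂ)‖ₑ * (volume A) ^ (1 / r.toReal) := by
        rw [hvol]
        gcongr
        rw [← ofReal_norm, Complex.norm_real, Real.norm_eq_abs]
        exact ENNReal.ofReal_le_ofReal (le_abs_self _)
    _ = eLpNorm (A.indicator (fun _ => (((1 / (8 * L) : ℝ)) : ℂ))) r volume :=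
        (eLpNorm_indicator_const hAmeas hr0 hrtop).symm
    _ ≤ _ := eLpNorm_mono hpt

end

end Vale.Agent.Lib.P141
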