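import Mathlib

namespace Vale.Agent.Lib.P141

/-- digit-wise tensor powers, in base `B`, of a finite set `P` of pairs `(x, t)`;
a pair `(x, t)` encodes the four-term progression `x, x - t, x - 2t, x - 3t` -/
def cfgPow (B : ℤ) (P : Finset (ℤ × ℤ)) : ℕ → Finset (ℤ × ℤ)
  | 0 => {(0, 0)}
  | (k + 1) => Finset.image₂ (fun q d => (B * q.1 + d.1, B * q.2 + d.2)) (cfgPow B P k) P

theorem card_fst_cfgPow (B : ℤ) (hB : B ≠ 0) (P : Finset (ℤ × ℤ))
    (hinj : ∀ d ∈ P, ∀ d' ∈ P, d.1 ≡ d'.1 [ZMOD B] → d.1 = d'.1) (k : ℕ) :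
    ((cfgPow B P k).image Prod.fst).card = (P.image Prod.fst).card ^ k := by
  induction k with
  | zero => simp [cfgPow]
  | succ k ih =>
    have h1 : (cfgPow B P (k + 1)).image Prod.fst
        = Finset.image₂ (fun x d => B * x + d) ((cfgPow B P k).image Prod.fst)
          (P.image Prod.fst) := by
      rw [cfgPow]
      exact Finset.image_image₂_distrib (fun _ _ => rfl)
    rw [h1, pow_succ, ← ih]
    rw [Finset.card_image₂_iff]
    rintro ⟨x, d⟩ hxd ⟨x', d'⟩ hxd' heq
    simp only [Set.mem_prod, Finset.mem_coe, Finset.mem_image] at hxd hxd'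
    obtain ⟨-, q, hq, rfl⟩ := hxd
    obtain ⟨-, q', hq', rfl⟩ := hxd'
    simp only at heq
    have hmod : q.1 ≡ q'.1 [ZMOD B] := by
      rw [Int.modEq_iff_dvd]
      exact ⟨x - x', by linarith⟩
    have hd := hinj q hq q' hq' hmod
    have hx : x = x' := by
      rw [hd] at heq
      have : B * x = B * x' := by linarith
      exact mul_left_cancel₀ hB this
    rw [hx, hd]

theorem card_proj_cfgPow_le (B : ℤ) (P : Finset (ℤ × ℤ)) (j : ℤ) (k : ℕ) :
    ((cfgPow B P k).image (fun q => q.1 - j * q.2)).card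
      ≤ (P.image (fun q => q.1 - j * q.2)).card ^ k := by
  induction k with
  | zero => simp [cfgPow]
  | succ k ih =>
    have h1 : (cfgPow B P (k + 1)).image (fun q => q.1 - j * q.2)
        = Finset.image₂ (fun s d => B * s + d) ((cfgPow B P k).image (fun q => q.1 - j * q.2))
          (P.image (fun q => q.1 - j * q.2)) := by
      rw [cfgPow]
      exact Finset.image_image₂_distrib (fun _ _ => by ring)
    rw [h1, pow_succ]
    exact (Finset.card_image₂_le _ _ _).trans (Nat.mul_le_mul_right _ ih)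

theorem abs_cfgPow_le (B : ℤ) (hB : 2 ≤ B) (P : Finset (ℤ × ℤ)) (c0 : ℤ)
    (hc : ∀ d ∈ P, |d.1| ≤ c0 ∧ |d.2| ≤ c0) (k : ℕ) :
    ∀ q ∈ cfgPow B P k, |q.1| ≤ c0 * (B ^ k - 1) ∧ |q.2| ≤ c0 * (B ^ k - 1) := by
  induction k with
  | zero =>
    intro q hq
    simp only [cfgPow, Finset.mem_singleton] at hq
    rw [hq]; simp
  | succ k ih =>
    intro q hq
    simp only [cfgPow, Finset.mem_image₂] at hq
    obtain ⟨q0, hq0, d, hd, rfl⟩ := hq
    obtain ⟨i1, i2⟩ := ih q0 hq0
    obtain ⟨d1, d2⟩ := hc d hd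
    have hc0 : 0 ≤ c0 := (abs_nonneg _).trans d1
    have hBpos : (0 : ℤ) ≤ B := by linarith
    have e : B * (c0 * (B ^ k - 1)) + c0 ≤ c0 * (B ^ (k + 1) - 1) := by
      have : c0 * 2 ≤ c0 * B := mul_le_mul_of_nonneg_left hB hc0
      rw [pow_succ]
      nlinarith
    constructor
    · calc |B * q0.1 + d.1| ≤ |B * q0.1| + |d.1| := abs_add_le _ _
        _ = B * |q0.1| + |d.1| := by rw [abs_mul, abs_of_nonneg hBpos]
        _ ≤ B * (c0 * (B ^ k - 1)) + c0 := by
            have := mul_le_mul_of_nonneg_left i1 hBpos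
            linarith
        _ ≤ _ := e
    · calc |B * q0.2 + d.2| ≤ |B * q0.2| + |d.2| := abs_add_le _ _
        _ = B * |q0.2| + |d.2| := by rw [abs_mul, abs_of_nonneg hBpos]
        _ ≤ B * (c0 * (B ^ k - 1)) + c0 := by
            have := mul_le_mul_of_nonneg_left i2 hBpos
            linarith
        _ ≤ _ := e

end Vale.Agent.Lib.P141
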