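import Mathlib
import Vale.Agent.Lib.P141.Analysis
import Vale.Agent.Lib.P141.Config

namespace Vale.Agent.Lib.P141

open MeasureTheory Filter Topology
open scoped ENNReal

theorem real_of_ennreal_ineq (c v ρ Cc m1 m2 m3 a1 a2 a3 : ℝ) (hc : 0 ≤ c) (hv : 0 ≤ v)
    (hρ : 0 ≤ ρ) (hm1 : 0 ≤ m1) (hm2 : 0 ≤ m2) (hm3 : 0 ≤ m3) (ha1 : 0 ≤ a1) (ha2 : 0 ≤ a2)
    (ha3 : 0 ≤ a3) (hC : 0 ≤ Cc)
    (h : ENNReal.ofReal c * (ENNReal.ofReal v) ^ ρ ≤ ENNReal.ofReal Cc *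
      (ENNReal.ofReal m1 ^ a1 * ENNReal.ofReal m2 ^ a2 * ENNReal.ofReal m3 ^ a3)) :
    c * v ^ ρ ≤ Cc * (m1 ^ a1 * m2 ^ a2 * m3 ^ a3) := by
  rw [ENNReal.ofReal_rpow_of_nonneg hv hρ, ENNReal.ofReal_rpow_of_nonneg hm1 ha1,
    ENNReal.ofReal_rpow_of_nonneg hm2 ha2, ENNReal.ofReal_rpow_of_nonneg hm3 ha3,
    ← ENNReal.ofReal_mul hc, ← ENNReal.ofReal_mul (by positivity),
    ← ENNReal.ofReal_mul (by positivity), ← ENNReal.ofReal_mul hC] at h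
  exact (ENNReal.ofReal_le_ofReal_iff (by positivity)).mp h

/-- The inequality forced by boundedness, for the `k`-th tensor power of a configuration. -/
theorem key_ineq (B : ℤ) (hB : 2 ≤ B) (P : Finset (ℤ × ℤ))
    (hinj : ∀ d ∈ P, ∀ d' ∈ P, d.1 ≡ d'.1 [ZMOD B] → d.1 = d'.1)
    (M1 M2 M3 : ℕ)
    (hM1 : (P.image (fun q => q.1 - 1 * q.2)).card ≤ M1)
    (hM2 : (P.image (fun q => q.1 - 2 * q.2)).card ≤ M2)
    (hM3 : (P.image (fun q => q.1 - 3 * q.2)).card ≤ M3)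
    (p₁ p₂ p₃ r : ℝ≥0∞) (hr0 : r ≠ 0) (hrtop : r ≠ ⊤) (C : NNReal)
    (hC : ∀ f₁ f₂ f₃ : SchwartzMap ℝ ℂ, eLpNorm (THT f₁ f₂ f₃) r volume ≤
      (C : ℝ≥0∞) * (eLpNorm f₁ p₁ volume * eLpNorm f₂ p₂ volume * eLpNorm f₃ p₃ volume))
    (c0 : ℤ) (hc0_1 : 1 ≤ c0) (hc0_P : ∀ d ∈ P, |d.1| ≤ c0 ∧ |d.2| ≤ c0) (k : ℕ) :
    1 / (8 * (10 * (c0 : ℝ) * (B : ℝ) ^ k + 3))
        * (((P.image Prod.fst).card : ℝ) ^ k * (1 / 8)) ^ r.toReal⁻¹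
      ≤ (C : ℝ) * (((M1 : ℝ) ^ k) ^ p₁.toReal⁻¹ * ((M2 : ℝ) ^ k) ^ p₂.toReal⁻¹
        * ((M3 : ℝ) ^ k) ^ p₃.toReal⁻¹) := by
  set X : ℕ := (P.image Prod.fst).card with hX
  have hρ : 0 ≤ r.toReal⁻¹ := inv_nonneg.mpr ENNReal.toReal_nonneg
  have ha1 : 0 ≤ p₁.toReal⁻¹ := inv_nonneg.mpr ENNReal.toReal_nonneg
  have ha2 : 0 ≤ p₂.toReal⁻¹ := inv_nonneg.mpr ENNReal.toReal_nonneg
  have ha3 : 0 ≤ p₃.toReal⁻¹ := inv_nonneg.mpr ENNReal.toReal_nonneg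
  set N : ℤ := c0 * B ^ k with hN
  set c : ℤ := 5 * N + 2 with hc
  set Pk := cfgPow B P k with hPk
  set S1 : Finset ℤ := Pk.image (fun q => q.1 - 1 * q.2) with hS1
  set S2 : Finset ℤ := (Pk.image (fun q => q.1 - 2 * q.2)).image (fun s => s - c) with hS2
  set S3 : Finset ℤ := (Pk.image (fun q => q.1 - 3 * q.2)).image (fun s => s - 2 * c) with hS3
  set Q : Finset ℤ := (Pk.image Prod.fst).image (fun s => s + c) with hQ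
  have hBk : (1 : ℤ) ≤ B ^ k := one_le_pow₀ (by linarith)
  have hbd : ∀ q ∈ Pk, |q.1| ≤ N ∧ |q.2| ≤ N := by
    intro q hq
    obtain ⟨h1, h2⟩ := abs_cfgPow_le B hB P c0 hc0_P k q hq
    have : c0 * (B ^ k - 1) ≤ N := by
      rw [hN]; nlinarith
    exact ⟨h1.trans this, h2.trans this⟩
  have hsepZ : ∀ a ∈ S1, ∀ b ∈ S2, (2 : ℤ) ≤ a - b ∧ a - b + 1 ≤ 10 * N + 3 := by
    intro a ha b hb
    simp only [hS1, hS2, Finset.mem_image] at ha hb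
    obtain ⟨q, hq, rfl⟩ := ha
    obtain ⟨s, ⟨q', hq', rfl⟩, rfl⟩ := hb
    obtain ⟨h1, h2⟩ := hbd q hq
    obtain ⟨h3, h4⟩ := hbd q' hq'
    rw [abs_le] at h1 h2 h3 h4
    constructor <;> linarith [h1.1, h1.2, h2.1, h2.2, h3.1, h3.2, h4.1, h4.2]
  have hsep : ∀ a ∈ S1, ∀ b ∈ S2,
      (2 : ℝ) ≤ (a : ℝ) - b ∧ (a : ℝ) - b + 1 ≤ ((10 * N + 3 : ℤ) : ℝ) := by
    intro a ha b hb
    obtain ⟨h1, h2⟩ := hsepZ a ha b hb
    constructor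
    · exact_mod_cast h1
    · exact_mod_cast h2
  have hQap : ∀ x0 ∈ Q, ∃ t0 : ℤ, x0 - t0 ∈ S1 ∧ x0 - 2 * t0 ∈ S2 ∧ x0 - 3 * t0 ∈ S3 := by
    intro x0 hx0
    simp only [hQ, Finset.mem_image] at hx0
    obtain ⟨s, ⟨q, hq, rfl⟩, rfl⟩ := hx0
    refine ⟨q.2 + c, ?_, ?_, ?_⟩
    · simp only [hS1, Finset.mem_image]
      exact ⟨q, hq, by ring⟩
    · simp only [hS2, Finset.mem_image]
      exact ⟨q.1 - 2 * q.2, ⟨q, hq, rfl⟩, by ring⟩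
    · simp only [hS3, Finset.mem_image]
      exact ⟨q.1 - 3 * q.2, ⟨q, hq, rfl⟩, by ring⟩
  have hQcard : Q.card = X ^ k := by
    rw [hQ, Finset.card_image_of_injective _ (add_left_injective c), hPk,
      card_fst_cfgPow B (by linarith) P hinj k]
  have hS1card : S1.card ≤ M1 ^ k :=
    (card_proj_cfgPow_le B P 1 k).trans (Nat.pow_le_pow_left hM1 k)
  have hS2card : S2.card ≤ M2 ^ k :=
    (Finset.card_image_le).trans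
      ((card_proj_cfgPow_le B P 2 k).trans (Nat.pow_le_pow_left hM2 k))
  have hS3card : S3.card ≤ M3 ^ k :=
    (Finset.card_image_le).trans
      ((card_proj_cfgPow_le B P 3 k).trans (Nat.pow_le_pow_left hM3 k))
  have hlow := eLpNorm_THT_ge hsep Q hQap r hr0 hrtop
  have hup := hC (bumpS S1) (bumpS S2) (bumpS S3)
  have hS : ∀ (S : Finset ℤ) (p : ℝ≥0∞) (M : ℕ), S.card ≤ M ^ k →
      eLpNorm (bumpS S) p volume ≤ ENNReal.ofReal ((M : ℝ) ^ k) ^ p.toReal⁻¹ := by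
    intro S p M hcard
    refine (eLpNorm_bumpS_le S p).trans ?_
    apply ENNReal.rpow_le_rpow _ (inv_nonneg.mpr ENNReal.toReal_nonneg)
    rw [← Nat.cast_pow, ENNReal.ofReal_natCast]
    exact_mod_cast hcard
  have hchain : ENNReal.ofReal (1 / (8 * ((10 * N + 3 : ℤ) : ℝ)))
      * (ENNReal.ofReal ((X : ℝ) ^ k * (1 / 8))) ^ r.toReal⁻¹
      ≤ ENNReal.ofReal (C : ℝ) * (ENNReal.ofReal ((M1 : ℝ) ^ k) ^ p₁.toReal⁻¹
        * ENNReal.ofReal ((M2 : ℝ) ^ k) ^ p₂.toReal⁻¹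
        * ENNReal.ofReal ((M3 : ℝ) ^ k) ^ p₃.toReal⁻¹) := by
    have e1 : ((Q.card : ℝ≥0∞) * ENNReal.ofReal (1 / 8))
        = ENNReal.ofReal ((X : ℝ) ^ k * (1 / 8)) := by
      rw [hQcard, ENNReal.ofReal_mul (by positivity), ← Nat.cast_pow, ENNReal.ofReal_natCast]
    rw [e1, one_div r.toReal] at hlow
    refine hlow.trans (hup.trans ?_)
    rw [ENNReal.ofReal_coe_nnreal]
    gcongr
    · exact hS S1 p₁ M1 hS1card
    · exact hS S2 p₂ M2 hS2card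
    · exact hS S3 p₃ M3 hS3card
  have hNpos : (1 : ℝ) ≤ (N : ℝ) := by
    have : (1 : ℤ) ≤ N := by rw [hN]; nlinarith
    exact_mod_cast this
  have hNR : ((10 * N + 3 : ℤ) : ℝ) = 10 * (c0 : ℝ) * (B : ℝ) ^ k + 3 := by
    rw [hN]; push_cast; ring
  have hpos : (0 : ℝ) ≤ 1 / (8 * ((10 * N + 3 : ℤ) : ℝ)) := by
    push_cast; positivity
  have hreal := real_of_ennreal_ineq _ _ r.toReal⁻¹ (C : ℝ) _ _ _ p₁.toReal⁻¹ p₂.toReal⁻¹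
    p₃.toReal⁻¹ hpos
    (by positivity) hρ (by positivity) (by positivity) (by positivity) ha1 ha2 ha3
    (NNReal.coe_nonneg C) hchain
  rw [hNR] at hreal
  exact hreal

theorem real_algebra (Xr ρ Cr m1 m2 m3 a1 a2 a3 c0 Br : ℝ) (k : ℕ) (hX : 0 ≤ Xr)
    (hC : 0 ≤ Cr) (hm1 : 0 ≤ m1) (hm2 : 0 ≤ m2) (hm3 : 0 ≤ m3)
    (hc0 : 1 ≤ c0) (hBr : 1 ≤ Br)
    (h : 1 / (8 * (10 * c0 * Br ^ k + 3)) * ((Xr ^ k * (1 / 8)) ^ ρ)
      ≤ Cr * ((m1 ^ k) ^ a1 * (m2 ^ k) ^ a2 * (m3 ^ k) ^ a3)) :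
    (Xr ^ ρ) ^ k ≤ (104 * c0 * (8 : ℝ) ^ ρ * Cr) * (Br * (m1 ^ a1 * m2 ^ a2 * m3 ^ a3)) ^ k := by
  have hXk : (Xr ^ k * (1 / 8)) ^ ρ = (Xr ^ ρ) ^ k * ((1 / 8 : ℝ) ^ ρ) := by
    rw [Real.mul_rpow (by positivity) (by positivity), Real.rpow_pow_comm hX]
  have hMk : (m1 ^ k) ^ a1 * (m2 ^ k) ^ a2 * (m3 ^ k) ^ a3
      = (m1 ^ a1 * m2 ^ a2 * m3 ^ a3) ^ k := by
    rw [mul_pow, mul_pow, Real.rpow_pow_comm hm1, Real.rpow_pow_comm hm2,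
      Real.rpow_pow_comm hm3]
  rw [hXk, hMk] at h
  have h8 : (1 / 8 : ℝ) ^ ρ * (8 : ℝ) ^ ρ = 1 := by
    rw [← Real.mul_rpow (by norm_num) (by norm_num)]
    norm_num
  have h8pos : 0 < (8 : ℝ) ^ ρ := by positivity
  have hBkR : (1 : ℝ) ≤ Br ^ k := one_le_pow₀ hBr
  have hLle : 10 * c0 * Br ^ k + 3 ≤ 13 * c0 * Br ^ k := by nlinarith
  have hLpos : 0 < 10 * c0 * Br ^ k + 3 := by positivity
  set E : ℝ := (m1 ^ a1 * m2 ^ a2 * m3 ^ a3) with hE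
  set Y : ℝ := Xr ^ ρ with hY
  have hE0 : 0 ≤ E := by positivity
  have hY0 : 0 ≤ Y := by positivity
  have hYk0 : 0 ≤ Y ^ k := by positivity
  have hCE : 0 ≤ Cr * E ^ k := by positivity
  have step1 : Y ^ k * ((1 / 8 : ℝ) ^ ρ) ≤ (8 * (10 * c0 * Br ^ k + 3)) * (Cr * E ^ k) := by
    have := mul_le_mul_of_nonneg_left h (by positivity : (0 : ℝ) ≤ 8 * (10 * c0 * Br ^ k + 3))
    calc Y ^ k * ((1 / 8 : ℝ) ^ ρ)
        = (8 * (10 * c0 * Br ^ k + 3))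
          * (1 / (8 * (10 * c0 * Br ^ k + 3)) * (Y ^ k * (1 / 8 : ℝ) ^ ρ)) := by
          field_simp
      _ ≤ _ := this
  rw [mul_pow]
  calc Y ^ k = (Y ^ k * ((1 / 8 : ℝ) ^ ρ)) * (8 : ℝ) ^ ρ := by rw [mul_assoc, h8, mul_one]
    _ ≤ ((8 * (10 * c0 * Br ^ k + 3)) * (Cr * E ^ k)) * (8 : ℝ) ^ ρ :=
        mul_le_mul_of_nonneg_right step1 h8pos.le
    _ ≤ ((8 * (13 * c0 * Br ^ k)) * (Cr * E ^ k)) * (8 : ℝ) ^ ρ := by
        gcongr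
    _ = 104 * c0 * (8 : ℝ) ^ ρ * Cr * (Br ^ k * E ^ k) := by ring

theorem no_geometric_bound (Y D K : ℝ) (hD0 : 0 ≤ D) (hDY : D < Y)
    (h : ∀ k : ℕ, Y ^ k ≤ K * D ^ k) : False := by
  by_cases hDz : D = 0
  · have h1 := h 1
    rw [hDz, pow_one, pow_one, mul_zero] at h1
    linarith
  · have hDpos : 0 < D := lt_of_le_of_ne hD0 (Ne.symm hDz)
    have hθ : 1 < Y / D := by rw [lt_div_iff₀ hDpos]; linarith
    obtain ⟨k, hk⟩ := ((tendsto_pow_atTop_atTop_of_one_lt hθ).eventually_gt_atTop K).exists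
    have h1 := h k
    rw [div_pow, lt_div_iff₀ (by positivity)] at hk
    linarith

/-- General criterion: a finite configuration `P` of four-term progressions `(x, t)` whose first
terms are distinct modulo `B`, and whose `j`-th terms take at most `Mj` values, forces
unboundedness as soon as `B * M1^(1/p₁) * M2^(1/p₂) * M3^(1/p₃) < X^(1/r)`, `X` the number of
first terms. -/
theorem unbounded_of_config (B : ℤ) (hB : 2 ≤ B) (P : Finset (ℤ × ℤ))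
    (hinj : ∀ d ∈ P, ∀ d' ∈ P, d.1 ≡ d'.1 [ZMOD B] → d.1 = d'.1)
    (M1 M2 M3 : ℕ)
    (hM1 : (P.image (fun q => q.1 - 1 * q.2)).card ≤ M1)
    (hM2 : (P.image (fun q => q.1 - 2 * q.2)).card ≤ M2)
    (hM3 : (P.image (fun q => q.1 - 3 * q.2)).card ≤ M3)
    (p₁ p₂ p₃ r : ℝ≥0∞) (hr0 : r ≠ 0) (hrtop : r ≠ ⊤)
    (hcrit : (B : ℝ) * ((M1 : ℝ) ^ p₁.toReal⁻¹ * (M2 : ℝ) ^ p₂.toReal⁻¹ * (M3 : ℝ) ^ p₃.toReal⁻¹)
      < ((P.image Prod.fst).card : ℝ) ^ r.toReal⁻¹) :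
    ¬ BoundedAt p₁ p₂ p₃ r := by
  rintro ⟨C, hC⟩
  set c0 : ℤ := 1 + ∑ d ∈ P, (|d.1| + |d.2|) with hc0
  have hc0_1 : 1 ≤ c0 := by
    have : 0 ≤ ∑ d ∈ P, (|d.1| + |d.2|) :=
      Finset.sum_nonneg fun d _ => add_nonneg (abs_nonneg _) (abs_nonneg _)
    linarith
  have hc0_P : ∀ d ∈ P, |d.1| ≤ c0 ∧ |d.2| ≤ c0 := by
    intro d hd
    have h1 : |d.1| + |d.2| ≤ ∑ d ∈ P, (|d.1| + |d.2|) :=
      Finset.single_le_sum (f := fun d : ℤ × ℤ => |d.1| + |d.2|)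
        (fun d _ => add_nonneg (abs_nonneg _) (abs_nonneg _)) hd
    have := abs_nonneg d.1
    have := abs_nonneg d.2
    constructor <;> linarith
  have hBR : (1 : ℝ) ≤ (B : ℝ) := by
    have : (1 : ℤ) ≤ B := by linarith
    exact_mod_cast this
  have hc0R : (1 : ℝ) ≤ (c0 : ℝ) := by exact_mod_cast hc0_1
  refine no_geometric_bound _ _ (104 * (c0 : ℝ) * (8 : ℝ) ^ r.toReal⁻¹ * (C : ℝ))
    (by positivity) hcrit (fun k => ?_)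
  exact real_algebra _ _ _ _ _ _ _ _ _ _ _ k (by positivity) (NNReal.coe_nonneg C)
    (by positivity) (by positivity) (by positivity) hc0R hBR
    (key_ineq B hB P hinj M1 M2 M3 hM1 hM2 hM3 p₁ p₂ p₃ r hr0 hrtop C hC c0 hc0_1 hc0_P k)

end Vale.Agent.Lib.P141
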