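import Mathlib
import Vale.Agent.Lib.P141.Main

namespace Vale.Agent.Lib.P141

open MeasureTheory Filter Topology
open scoped ENNReal

/-- seventeen four-term progressions `x, x - t, x - 2t, x - 3t`, listed as pairs `(x, t)`:
the first terms are `-8, ..., 8`, and each of the other three terms takes only five values -/
def P17 : Finset (ℤ × ℤ) :=
  {(8, 4), (7, 3), (6, 2), (5, 3), (4, 2), (3, 1), (2, 0), (1, 1), (0, 0), (-1, -1), (-2, 0),
    (-3, -1), (-4, -2), (-5, -3), (-6, -2), (-7, -3), (-8, -4)}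

theorem P17_inj : ∀ d ∈ P17, ∀ d' ∈ P17, d.1 ≡ d'.1 [ZMOD 17] → d.1 = d'.1 := by decide

theorem P17_card : (P17.image Prod.fst).card = 17 := by decide

theorem P17_M1 : (P17.image (fun q => q.1 - 1 * q.2)).card ≤ 5 := by decide

theorem P17_M2 : (P17.image (fun q => q.1 - 2 * q.2)).card ≤ 5 := by decide

theorem P17_M3 : (P17.image (fun q => q.1 - 3 * q.2)).card ≤ 5 := by decide

theorem holder_sum {p₁ p₂ p₃ r : ℝ≥0∞} (hH : IsHolderTuple p₁ p₂ p₃ r) :
    p₁.toReal⁻¹ + p₂.toReal⁻¹ + p₃.toReal⁻¹ = r.toReal⁻¹ := by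
  obtain ⟨h1, h2, h3, -, -, h⟩ := hH
  have e1 : p₁⁻¹ ≠ ⊤ := ENNReal.inv_ne_top.mpr (zero_lt_one.trans h1).ne'
  have e2 : p₂⁻¹ ≠ ⊤ := ENNReal.inv_ne_top.mpr (zero_lt_one.trans h2).ne'
  have e3 : p₃⁻¹ ≠ ⊤ := ENNReal.inv_ne_top.mpr (zero_lt_one.trans h3).ne'
  have := congrArg ENNReal.toReal h
  rw [ENNReal.toReal_add (ENNReal.add_ne_top.mpr ⟨e1, e2⟩) e3, ENNReal.toReal_add e1 e2,
    ENNReal.toReal_inv, ENNReal.toReal_inv, ENNReal.toReal_inv, ENNReal.toReal_inv] at this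
  exact this.symm

theorem crit17 {s : ℝ} (hs0 : 0 < s) (hs : s < 1 - Real.log 5 / Real.log 17) :
    (17 : ℝ) * (5 : ℝ) ^ s⁻¹ < (17 : ℝ) ^ s⁻¹ := by
  have h17 : 0 < Real.log 17 := Real.log_pos (by norm_num)
  have hs' : s * Real.log 17 < Real.log 17 - Real.log 5 := by
    have := mul_lt_mul_of_pos_right hs h17
    rw [sub_mul, one_mul, div_mul_cancel₀ _ h17.ne'] at this
    exact this
  rw [Real.rpow_def_of_pos (by norm_num : (0 : ℝ) < 5),
    Real.rpow_def_of_pos (by norm_num : (0 : ℝ) < 17)]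
  calc (17 : ℝ) * Real.exp (Real.log 5 * s⁻¹)
      = Real.exp (Real.log 17) * Real.exp (Real.log 5 * s⁻¹) := by
        rw [Real.exp_log (by norm_num)]
    _ = Real.exp (Real.log 17 + Real.log 5 * s⁻¹) := (Real.exp_add _ _).symm
    _ < Real.exp (Real.log 17 * s⁻¹) := by
        apply Real.exp_lt_exp.mpr
        have hinv : 0 < s⁻¹ := inv_pos.mpr hs0
        have e : Real.log 17 * s⁻¹ - (Real.log 17 + Real.log 5 * s⁻¹)
            = (Real.log 17 - Real.log 5 - s * Real.log 17) * s⁻¹ := by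
          field_simp
          ring
        have : 0 < (Real.log 17 - Real.log 5 - s * Real.log 17) * s⁻¹ :=
          mul_pos (by linarith) hinv
        linarith

/-- The trilinear Hilbert transform is unbounded at every Hölder tuple with
`r < 1 - log 5 / log 17`. -/
theorem unbounded_corner (p₁ p₂ p₃ r : ℝ≥0∞) (hH : IsHolderTuple p₁ p₂ p₃ r)
    (hr : r < ENNReal.ofReal (1 - Real.log 5 / Real.log 17)) : ¬ BoundedAt p₁ p₂ p₃ r := by
  have hr0 : r ≠ 0 := hH.2.2.2.1.ne'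
  have hrtop : r ≠ ⊤ := hH.2.2.2.2.1.ne
  have hs0 : 0 < r.toReal := ENNReal.toReal_pos hr0 hrtop
  have hs : r.toReal < 1 - Real.log 5 / Real.log 17 :=
    (ENNReal.lt_ofReal_iff_toReal_lt hrtop).mp hr
  apply unbounded_of_config 17 (by norm_num) P17 P17_inj 5 5 5 P17_M1 P17_M2 P17_M3
    p₁ p₂ p₃ r hr0 hrtop
  rw [P17_card]
  have hsum := holder_sum hH
  have h5 : (5 : ℝ) ^ p₁.toReal⁻¹ * (5 : ℝ) ^ p₂.toReal⁻¹ * (5 : ℝ) ^ p₃.toReal⁻¹
      = (5 : ℝ) ^ r.toReal⁻¹ := by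
    rw [← Real.rpow_add (by norm_num), ← Real.rpow_add (by norm_num), hsum]
  have := crit17 hs0 hs
  push_cast
  rw [h5]
  exact this

end Vale.Agent.Lib.P141
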