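import Mathlib
import Vale.Agent.Lib.P141.Corner

namespace Vale.Agent.Lib.P141

open MeasureTheory Filter Topology
open scoped ENNReal

/-- logarithmic form of the criterion, with the exponents written as `(p⁻¹).toReal` -/
theorem unbounded_of_config_log (B : ℤ) (hB : 2 ≤ B) (P : Finset (ℤ × ℤ))
    (hinj : ∀ d ∈ P, ∀ d' ∈ P, d.1 ≡ d'.1 [ZMOD B] → d.1 = d'.1)
    (M1 M2 M3 : ℕ) (h1 : 0 < M1) (h2 : 0 < M2) (h3 : 0 < M3)
    (hM1 : (P.image (fun q => q.1 - 1 * q.2)).card ≤ M1)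
    (hM2 : (P.image (fun q => q.1 - 2 * q.2)).card ≤ M2)
    (hM3 : (P.image (fun q => q.1 - 3 * q.2)).card ≤ M3)
    (X : ℕ) (hX : (P.image Prod.fst).card = X) (hXpos : 0 < X)
    (p₁ p₂ p₃ r : ℝ≥0∞) (hH : IsHolderTuple p₁ p₂ p₃ r)
    (hlog : Real.log (B : ℝ) + (p₁⁻¹).toReal * Real.log (M1 : ℝ)
        + (p₂⁻¹).toReal * Real.log (M2 : ℝ) + (p₃⁻¹).toReal * Real.log (M3 : ℝ)
      < ((p₁⁻¹).toReal + (p₂⁻¹).toReal + (p₃⁻¹).toReal) * Real.log (X : ℝ)) :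
    ¬ BoundedAt p₁ p₂ p₃ r := by
  have hr0 : r ≠ 0 := hH.2.2.2.1.ne'
  have hrtop : r ≠ ⊤ := hH.2.2.2.2.1.ne
  apply unbounded_of_config B hB P hinj M1 M2 M3 hM1 hM2 hM3 p₁ p₂ p₃ r hr0 hrtop
  rw [hX, ← holder_sum hH]
  simp only [ENNReal.toReal_inv] at hlog
  have hBpos : (0 : ℝ) < (B : ℝ) := by
    have : (0 : ℤ) < B := by linarith
    exact_mod_cast this
  have hM1pos : (0 : ℝ) < (M1 : ℝ) := by exact_mod_cast h1
  have hM2pos : (0 : ℝ) < (M2 : ℝ) := by exact_mod_cast h2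
  have hM3pos : (0 : ℝ) < (M3 : ℝ) := by exact_mod_cast h3
  have hXpos' : (0 : ℝ) < (X : ℝ) := by exact_mod_cast hXpos
  rw [Real.rpow_def_of_pos hM1pos, Real.rpow_def_of_pos hM2pos, Real.rpow_def_of_pos hM3pos,
    Real.rpow_def_of_pos hXpos', ← Real.exp_add, ← Real.exp_add]
  calc (B : ℝ) * Real.exp (Real.log (M1 : ℝ) * p₁.toReal⁻¹ + Real.log (M2 : ℝ) * p₂.toReal⁻¹
        + Real.log (M3 : ℝ) * p₃.toReal⁻¹)
      = Real.exp (Real.log (B : ℝ)) * Real.exp (Real.log (M1 : ℝ) * p₁.toReal⁻¹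
        + Real.log (M2 : ℝ) * p₂.toReal⁻¹ + Real.log (M3 : ℝ) * p₃.toReal⁻¹) := by
        rw [Real.exp_log hBpos]
    _ = Real.exp (Real.log (B : ℝ) + (Real.log (M1 : ℝ) * p₁.toReal⁻¹
        + Real.log (M2 : ℝ) * p₂.toReal⁻¹ + Real.log (M3 : ℝ) * p₃.toReal⁻¹)) :=
        (Real.exp_add _ _).symm
    _ < Real.exp (Real.log (X : ℝ) * (p₁.toReal⁻¹ + p₂.toReal⁻¹ + p₃.toReal⁻¹)) := by
        apply Real.exp_lt_exp.mpr
        linarith

/-- sixteen progressions `(x, t)` with first terms `-3, ..., 12`; the second and third terms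
take four values each, the fourth term seven values -/
def P16a : Finset (ℤ × ℤ) :=
  {(0, 0), (-1, -1), (-2, -2), (-3, -3), (4, 2), (3, 1), (2, 0), (1, -1), (8, 4), (7, 3),
    (6, 2), (5, 1), (12, 6), (11, 5), (10, 4), (9, 3)}

theorem P16a_inj : ∀ d ∈ P16a, ∀ d' ∈ P16a, d.1 ≡ d'.1 [ZMOD 16] → d.1 = d'.1 := by decide
theorem P16a_card : (P16a.image Prod.fst).card = 16 := by decide
theorem P16a_M1 : (P16a.image (fun q => q.1 - 1 * q.2)).card ≤ 4 := by decide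
theorem P16a_M2 : (P16a.image (fun q => q.1 - 2 * q.2)).card ≤ 4 := by decide
theorem P16a_M3 : (P16a.image (fun q => q.1 - 3 * q.2)).card ≤ 7 := by decide

/-- sixteen progressions `(x, t)` with first terms a complete residue system modulo 16; the
second term takes seven values, the third and fourth terms four values each -/
def P16b : Finset (ℤ × ℤ) :=
  {(0, 0), (3, 1), (6, 2), (9, 3), (-4, -2), (-1, -1), (2, 0), (5, 1), (-8, -4), (-5, -3),
    (-2, -2), (1, -1), (-12, -6), (-9, -5), (-6, -4), (-3, -3)}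

theorem P16b_inj : ∀ d ∈ P16b, ∀ d' ∈ P16b, d.1 ≡ d'.1 [ZMOD 16] → d.1 = d'.1 := by decide
theorem P16b_card : (P16b.image Prod.fst).card = 16 := by decide
theorem P16b_M1 : (P16b.image (fun q => q.1 - 1 * q.2)).card ≤ 7 := by decide
theorem P16b_M2 : (P16b.image (fun q => q.1 - 2 * q.2)).card ≤ 4 := by decide
theorem P16b_M3 : (P16b.image (fun q => q.1 - 3 * q.2)).card ≤ 4 := by decide

/-- nine progressions `(x, t)` with first terms `-2, ..., 6`; the second and fourth terms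
take three values each, the third term five values -/
def P9 : Finset (ℤ × ℤ) :=
  {(0, 0), (-1, -1), (-2, -2), (3, 1), (2, 0), (1, -1), (6, 2), (5, 1), (4, 0)}

theorem P9_inj : ∀ d ∈ P9, ∀ d' ∈ P9, d.1 ≡ d'.1 [ZMOD 9] → d.1 = d'.1 := by decide
theorem P9_card : (P9.image Prod.fst).card = 9 := by decide
theorem P9_M1 : (P9.image (fun q => q.1 - 1 * q.2)).card ≤ 3 := by decide
theorem P9_M2 : (P9.image (fun q => q.1 - 2 * q.2)).card ≤ 5 := by decide
theorem P9_M3 : (P9.image (fun q => q.1 - 3 * q.2)).card ≤ 3 := by decide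

theorem log16 : Real.log 16 = 2 * Real.log 4 := by
  have : (16 : ℝ) = 4 ^ 2 := by norm_num
  rw [this, Real.log_pow]; norm_num

theorem log9 : Real.log 9 = 2 * Real.log 3 := by
  have : (9 : ℝ) = 3 ^ 2 := by norm_num
  rw [this, Real.log_pow]; norm_num

/-- log form of the three face conditions -/
theorem face12 (p₁ p₂ p₃ r : ℝ≥0∞) (hH : IsHolderTuple p₁ p₂ p₃ r)
    (h : 2 * Real.log 4 < ((p₁⁻¹).toReal + (p₂⁻¹).toReal) * Real.log 4
      + (p₃⁻¹).toReal * (Real.log 16 - Real.log 7)) : ¬ BoundedAt p₁ p₂ p₃ r := by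
  apply unbounded_of_config_log 16 (by norm_num) P16a P16a_inj 4 4 7 (by norm_num) (by norm_num)
    (by norm_num) P16a_M1 P16a_M2 P16a_M3 16 P16a_card (by norm_num) p₁ p₂ p₃ r hH
  push_cast
  rw [log16] at h ⊢
  linarith

theorem face23 (p₁ p₂ p₃ r : ℝ≥0∞) (hH : IsHolderTuple p₁ p₂ p₃ r)
    (h : 2 * Real.log 4 < (p₁⁻¹).toReal * (Real.log 16 - Real.log 7)
      + ((p₂⁻¹).toReal + (p₃⁻¹).toReal) * Real.log 4) : ¬ BoundedAt p₁ p₂ p₃ r := by
  apply unbounded_of_config_log 16 (by norm_num) P16b P16b_inj 7 4 4 (by norm_num) (by norm_num)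
    (by norm_num) P16b_M1 P16b_M2 P16b_M3 16 P16b_card (by norm_num) p₁ p₂ p₃ r hH
  push_cast
  rw [log16] at h ⊢
  linarith

theorem face13 (p₁ p₂ p₃ r : ℝ≥0∞) (hH : IsHolderTuple p₁ p₂ p₃ r)
    (h : 2 * Real.log 3 < ((p₁⁻¹).toReal + (p₃⁻¹).toReal) * Real.log 3
      + (p₂⁻¹).toReal * (Real.log 9 - Real.log 5)) : ¬ BoundedAt p₁ p₂ p₃ r := by
  apply unbounded_of_config_log 9 (by norm_num) P9 P9_inj 3 5 3 (by norm_num) (by norm_num)
    (by norm_num) P9_M1 P9_M2 P9_M3 9 P9_card (by norm_num) p₁ p₂ p₃ r hH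
  push_cast
  rw [log9] at h ⊢
  linarith

end Vale.Agent.Lib.P141
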