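import Mathlib
import Vale.Agent.Lib.P141.Region

namespace Vale.Agent.Lib.P141

open MeasureTheory Filter Topology
open scoped ENNReal

theorem holder_sum' {p₁ p₂ p₃ r : ℝ≥0∞} (hH : IsHolderTuple p₁ p₂ p₃ r) :
    (p₁⁻¹).toReal + (p₂⁻¹).toReal + (p₃⁻¹).toReal = (r⁻¹).toReal := by
  have := holder_sum hH
  simp only [ENNReal.toReal_inv]
  exact this

theorem inv_toReal_nonneg (p : ℝ≥0∞) : 0 ≤ (p⁻¹).toReal := ENNReal.toReal_nonneg

/-- the region of unboundedness, multiplicative form -/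
theorem unbounded_region (p₁ p₂ p₃ r : ℝ≥0∞) (hH : IsHolderTuple p₁ p₂ p₃ r)
    (h : (17 : ℝ) < (17 / 5) ^ (r⁻¹).toReal ∨
      (16 : ℝ) < 4 ^ ((p₁⁻¹).toReal + (p₂⁻¹).toReal) * (16 / 7) ^ (p₃⁻¹).toReal ∨
      (16 : ℝ) < (16 / 7) ^ (p₁⁻¹).toReal * 4 ^ ((p₂⁻¹).toReal + (p₃⁻¹).toReal) ∨
      (9 : ℝ) < 3 ^ ((p₁⁻¹).toReal + (p₃⁻¹).toReal) * (9 / 5) ^ (p₂⁻¹).toReal) :
    ¬ BoundedAt p₁ p₂ p₃ r := by
  rcases h with h | h | h | h
  · apply unbounded_of_config_log 17 (by norm_num) P17 P17_inj 5 5 5 (by norm_num) (by norm_num)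
      (by norm_num) P17_M1 P17_M2 P17_M3 17 P17_card (by norm_num) p₁ p₂ p₃ r hH
    have hl := Real.log_lt_log (by norm_num) h
    rw [Real.log_rpow (by norm_num), Real.log_div (by norm_num) (by norm_num),
      ← holder_sum' hH] at hl
    push_cast
    linarith
  · apply face12 p₁ p₂ p₃ r hH
    have hl := Real.log_lt_log (by norm_num) h
    rw [Real.log_mul (by positivity) (by positivity), Real.log_rpow (by norm_num),
      Real.log_rpow (by norm_num), Real.log_div (by norm_num) (by norm_num), log16] at hl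
    rw [log16]
    linarith
  · apply face23 p₁ p₂ p₃ r hH
    have hl := Real.log_lt_log (by norm_num) h
    rw [Real.log_mul (by positivity) (by positivity), Real.log_rpow (by norm_num),
      Real.log_rpow (by norm_num), Real.log_div (by norm_num) (by norm_num), log16] at hl
    rw [log16]
    linarith
  · apply face13 p₁ p₂ p₃ r hH
    have hl := Real.log_lt_log (by norm_num) h
    rw [Real.log_mul (by positivity) (by positivity), Real.log_rpow (by norm_num),
      Real.log_rpow (by norm_num), Real.log_div (by norm_num) (by norm_num), log9] at hl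
    rw [log9]
    linarith

theorem log4 : Real.log 4 = 2 * Real.log 2 := by
  have : (4 : ℝ) = 2 ^ 2 := by norm_num
  rw [this, Real.log_pow]; norm_num

theorem log7_lt : Real.log 7 < 3 * Real.log 2 := by
  have : (3 : ℝ) * Real.log 2 = Real.log 8 := by
    have h8 : (8 : ℝ) = 2 ^ 3 := by norm_num
    rw [h8, Real.log_pow]; norm_num
  rw [this]
  exact Real.log_lt_log (by norm_num) (by norm_num)

theorem log5_lt : 2 * Real.log 5 < 3 * Real.log 3 := by
  have h1 : (2 : ℝ) * Real.log 5 = Real.log 25 := by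
    have h25 : (25 : ℝ) = 5 ^ 2 := by norm_num
    rw [h25, Real.log_pow]; norm_num
  have h2 : (3 : ℝ) * Real.log 3 = Real.log 27 := by
    have h27 : (27 : ℝ) = 3 ^ 3 := by norm_num
    rw [h27, Real.log_pow]; norm_num
  rw [h1, h2]
  exact Real.log_lt_log (by norm_num) (by norm_num)

/-- a simple sufficient condition -/
theorem unbounded_simple (p₁ p₂ p₃ r : ℝ≥0∞) (hH : IsHolderTuple p₁ p₂ p₃ r)
    (h : r < ENNReal.ofReal (1 - Real.log 5 / Real.log 17) ∨
      2 + (p₁⁻¹).toReal / 2 < (r⁻¹).toReal ∨ 2 + (p₂⁻¹).toReal / 2 < (r⁻¹).toReal ∨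
      2 + (p₃⁻¹).toReal / 2 < (r⁻¹).toReal) :
    ¬ BoundedAt p₁ p₂ p₃ r := by
  have hs := holder_sum' hH
  have n1 := inv_toReal_nonneg p₁
  have n2 := inv_toReal_nonneg p₂
  have n3 := inv_toReal_nonneg p₃
  have l2 : 0 < Real.log 2 := Real.log_pos (by norm_num)
  have l3 : 0 < Real.log 3 := Real.log_pos (by norm_num)
  rcases h with h | h | h | h
  · exact unbounded_corner p₁ p₂ p₃ r hH h
  · apply face23 p₁ p₂ p₃ r hH
    rw [← hs] at h
    rw [log16, log4]
    have := log7_lt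
    nlinarith
  · apply face13 p₁ p₂ p₃ r hH
    rw [← hs] at h
    rw [log9]
    have := log5_lt
    nlinarith
  · apply face12 p₁ p₂ p₃ r hH
    rw [← hs] at h
    rw [log16, log4]
    have := log7_lt
    nlinarith

theorem holder_explicit {ε : ℝ} (h0 : 0 < ε) (h1 : ε ≤ 1 / 8) :
    IsHolderTuple (ENNReal.ofReal (1 / (1 - ε))) (ENNReal.ofReal (1 / (1 - ε)))
      (ENNReal.ofReal (1 / (6 * ε))) (ENNReal.ofReal (1 / (2 + 4 * ε))) := by
  have e1 : (0 : ℝ) < 1 - ε := by linarith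
  have e2 : (0 : ℝ) < 6 * ε := by linarith
  have e3 : (0 : ℝ) < 2 + 4 * ε := by linarith
  have i1 : (ENNReal.ofReal (1 / (1 - ε)))⁻¹ = ENNReal.ofReal (1 - ε) := by
    rw [← ENNReal.ofReal_inv_of_pos (by positivity), one_div, inv_inv]
  have i2 : (ENNReal.ofReal (1 / (6 * ε)))⁻¹ = ENNReal.ofReal (6 * ε) := by
    rw [← ENNReal.ofReal_inv_of_pos (by positivity), one_div, inv_inv]
  have i3 : (ENNReal.ofReal (1 / (2 + 4 * ε)))⁻¹ = ENNReal.ofReal (2 + 4 * ε) := by
    rw [← ENNReal.ofReal_inv_of_pos (by positivity), one_div, inv_inv]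
  refine ⟨?_, ?_, ?_, ?_, ?_, ?_⟩
  · rw [← ENNReal.ofReal_one]
    apply (ENNReal.ofReal_lt_ofReal_iff (by positivity)).mpr
    rw [lt_div_iff₀ e1]; linarith
  · rw [← ENNReal.ofReal_one]
    apply (ENNReal.ofReal_lt_ofReal_iff (by positivity)).mpr
    rw [lt_div_iff₀ e1]; linarith
  · rw [← ENNReal.ofReal_one]
    apply (ENNReal.ofReal_lt_ofReal_iff (by positivity)).mpr
    rw [lt_div_iff₀ e2]; linarith
  · exact ENNReal.ofReal_pos.mpr (by positivity)
  · exact ENNReal.ofReal_lt_top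
  · rw [i1, i2, i3, ← ENNReal.ofReal_add e1.le e1.le, ← ENNReal.ofReal_add (by linarith) e2.le]
    congr 1
    ring

theorem unbounded_explicit {ε : ℝ} (h0 : 0 < ε) (h1 : ε ≤ 1 / 8) :
    ¬ BoundedAt (ENNReal.ofReal (1 / (1 - ε))) (ENNReal.ofReal (1 / (1 - ε)))
      (ENNReal.ofReal (1 / (6 * ε))) (ENNReal.ofReal (1 / (2 + 4 * ε))) := by
  apply unbounded_simple _ _ _ _ (holder_explicit h0 h1)
  right; right; right
  have e2 : (0 : ℝ) < 6 * ε := by linarith
  have e3 : (0 : ℝ) < 2 + 4 * ε := by linarith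
  rw [← ENNReal.ofReal_inv_of_pos (by positivity), ← ENNReal.ofReal_inv_of_pos (by positivity),
    ENNReal.toReal_ofReal (by positivity), ENNReal.toReal_ofReal (by positivity), one_div,
    inv_inv, one_div, inv_inv]
  linarith

/-- unboundedness occurs at Hölder tuples with `r` arbitrarily close to `1/2` -/
theorem unbounded_near_half (r₀ : ℝ) (hr₀ : r₀ < 1 / 2) :
    ∃ p₁ p₂ p₃ r : ℝ≥0∞, IsHolderTuple p₁ p₂ p₃ r ∧ ENNReal.ofReal r₀ < r ∧
      ¬ BoundedAt p₁ p₂ p₃ r := by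
  set ε : ℝ := min (1 / 8) ((1 - 2 * r₀) / 8) with hε
  have h0 : 0 < ε := lt_min (by norm_num) (by linarith)
  have h1 : ε ≤ 1 / 8 := min_le_left _ _
  have h2 : ε ≤ (1 - 2 * r₀) / 8 := min_le_right _ _
  refine ⟨_, _, _, _, holder_explicit h0 h1, ?_, unbounded_explicit h0 h1⟩
  have e3 : (0 : ℝ) < 2 + 4 * ε := by linarith
  apply (ENNReal.ofReal_lt_ofReal_iff (by positivity)).mpr
  rw [lt_div_iff₀ e3]
  by_cases hr : r₀ ≤ 0
  · nlinarith
  · push Not at hr
    nlinarith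

end Vale.Agent.Lib.P141
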