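import Mathlib
import Vale.Agent.Lib.P141.RegionMain

namespace Vale.Agent.Lib.P141

open MeasureTheory Filter Topology
open scoped ENNReal

/-- the general criterion, stated with the exponents `(p⁻¹).toReal` -/
theorem unbounded_criterion (B : ℤ) (P : Finset (ℤ × ℤ)) (M₁ M₂ M₃ : ℕ) (p₁ p₂ p₃ r : ℝ≥0∞)
    (hB : 2 ≤ B)
    (hinj : ∀ d ∈ P, ∀ d' ∈ P, d.1 ≡ d'.1 [ZMOD B] → d.1 = d'.1)
    (hM1 : (P.image (fun q => q.1 - q.2)).card ≤ M₁)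
    (hM2 : (P.image (fun q => q.1 - 2 * q.2)).card ≤ M₂)
    (hM3 : (P.image (fun q => q.1 - 3 * q.2)).card ≤ M₃)
    (hH : IsHolderTuple p₁ p₂ p₃ r)
    (hcrit : (B : ℝ) * ((M₁ : ℝ) ^ (p₁⁻¹).toReal * (M₂ : ℝ) ^ (p₂⁻¹).toReal
        * (M₃ : ℝ) ^ (p₃⁻¹).toReal) < ((P.image Prod.fst).card : ℝ) ^ (r⁻¹).toReal) :
    ¬ BoundedAt p₁ p₂ p₃ r := by
  have hr0 : r ≠ 0 := hH.2.2.2.1.ne'
  have hrtop : r ≠ ⊤ := hH.2.2.2.2.1.ne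
  have hM1' : (P.image (fun q => q.1 - 1 * q.2)).card ≤ M₁ := by
    simpa only [one_mul] using hM1
  simp only [ENNReal.toReal_inv] at hcrit
  exact unbounded_of_config B hB P hinj M₁ M₂ M₃ hM1' hM2 hM3 p₁ p₂ p₃ r hr0 hrtop hcrit

end Vale.Agent.Lib.P141
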