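import Mathlib
import Vale.Agent.Lib.P141.Bump

namespace Vale.Agent.Lib.P141

open MeasureTheory Filter Topology
open scoped ENNReal NNReal

/-- weighted sum of translates of the bump: the bump attached to `a ∈ S` sits on the interval
`(a - c, a - c + 1)` and carries the weight `w a` -/
noncomputable def wbumpSum (S : Finset ℤ) (w : ℤ → ℝ≥0) (c : ℤ) (u : ℝ) : ℝ :=
  ∑ a ∈ S, (w a : ℝ) * psi (u - ((a - c : ℤ) : ℝ))

theorem wbumpSum_nonneg (S : Finset ℤ) (w : ℤ → ℝ≥0) (c : ℤ) (u : ℝ) :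
    0 ≤ wbumpSum S w c u :=
  Finset.sum_nonneg fun _ _ => mul_nonneg (NNReal.coe_nonneg _) psi.nonneg

theorem wbumpSum_ne_zero {S : Finset ℤ} {w : ℤ → ℝ≥0} {c : ℤ} {u : ℝ}
    (h : wbumpSum S w c u ≠ 0) :
    ∃ a ∈ S, (((a - c : ℤ)) : ℝ) < u ∧ u < ((a - c : ℤ) : ℝ) + 1 := by
  by_contra hcon
  push Not at hcon
  apply h
  apply Finset.sum_eq_zero
  intro a ha
  by_contra hne
  have hne' : psi (u - ((a - c : ℤ) : ℝ)) ≠ 0 := fun h0 => hne (by rw [h0, mul_zero])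
  have := psi_ne_zero hne'
  have h2 := hcon a ha (by linarith)
  linarith

theorem wbumpSum_eq_single {S : Finset ℤ} (w : ℤ → ℝ≥0) (c : ℤ) {u : ℝ} {a0 : ℤ}
    (h1 : ((a0 - c : ℤ) : ℝ) < u) (h2 : u < ((a0 - c : ℤ) : ℝ) + 1) :
    wbumpSum S w c u = if a0 ∈ S then (w a0 : ℝ) * psi (u - ((a0 - c : ℤ) : ℝ)) else 0 := by
  unfold wbumpSum
  have hz : ∀ b ∈ S, b ≠ a0 → (w b : ℝ) * psi (u - ((b - c : ℤ) : ℝ)) = 0 := by
    intro b _ hb
    by_contra hne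
    have hne' : psi (u - ((b - c : ℤ) : ℝ)) ≠ 0 := fun h0 => hne (by rw [h0, mul_zero])
    have h3 := psi_ne_zero hne'
    apply hb
    have e1 : ((b - c : ℤ) : ℝ) < ((a0 - c : ℤ) : ℝ) + 1 := by linarith
    have e2 : ((a0 - c : ℤ) : ℝ) < ((b - c : ℤ) : ℝ) + 1 := by linarith
    have e1' : b - c < a0 - c + 1 := by exact_mod_cast e1
    have e2' : a0 - c < b - c + 1 := by exact_mod_cast e2
    omega
  by_cases ha : a0 ∈ S
  · rw [if_pos ha]
    exact Finset.sum_eq_single_of_mem a0 ha hz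
  · rw [if_neg ha]
    apply Finset.sum_eq_zero
    intro b hb
    exact hz b hb (fun hba => ha (hba ▸ hb))

theorem wbumpSum_le_sum (S : Finset ℤ) (w : ℤ → ℝ≥0) (c : ℤ) (u : ℝ) :
    wbumpSum S w c u ≤ ∑ a ∈ S, (w a : ℝ) := by
  unfold wbumpSum
  apply Finset.sum_le_sum
  intro a _
  calc (w a : ℝ) * psi (u - ((a - c : ℤ) : ℝ)) ≤ (w a : ℝ) * 1 :=
        mul_le_mul_of_nonneg_left psi.le_one (NNReal.coe_nonneg _)
    _ = (w a : ℝ) := mul_one _

theorem le_wbumpSum {S : Finset ℤ} (w : ℤ → ℝ≥0) (c : ℤ) {a : ℤ} (ha : a ∈ S) {u : ℝ}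
    (h1 : ((a - c : ℤ) : ℝ) + 1/4 ≤ u) (h2 : u ≤ ((a - c : ℤ) : ℝ) + 3/4) :
    (w a : ℝ) ≤ wbumpSum S w c u := by
  have hpsi : psi (u - ((a - c : ℤ) : ℝ)) = 1 := psi_eq_one (by linarith) (by linarith)
  calc (w a : ℝ) = (w a : ℝ) * psi (u - ((a - c : ℤ) : ℝ)) := by rw [hpsi, mul_one]
    _ ≤ wbumpSum S w c u :=
        Finset.single_le_sum (f := fun b : ℤ => (w b : ℝ) * psi (u - ((b - c : ℤ) : ℝ)))
          (fun _ _ => mul_nonneg (NNReal.coe_nonneg _) psi.nonneg) ha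

theorem contDiff_wbumpSum (S : Finset ℤ) (w : ℤ → ℝ≥0) (c : ℤ) :
    ContDiff ℝ (⊤ : ℕ∞) (wbumpSum S w c) := by
  unfold wbumpSum
  apply ContDiff.sum
  intro a _
  exact contDiff_const.mul (psi.contDiff.comp (contDiff_id.sub contDiff_const))

theorem continuous_wbumpSum (S : Finset ℤ) (w : ℤ → ℝ≥0) (c : ℤ) :
    Continuous (wbumpSum S w c) :=
  (contDiff_wbumpSum S w c).continuous

theorem hasCompactSupport_wbumpSum (S : Finset ℤ) (w : ℤ → ℝ≥0) (c : ℤ) :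
    HasCompactSupport (wbumpSum S w c) := by
  unfold wbumpSum
  induction S using Finset.induction_on with
  | empty =>
    simp only [Finset.sum_empty]
    exact HasCompactSupport.zero
  | insert a s ha ih =>
    have h1 : HasCompactSupport (fun u : ℝ => psi (u - ((a - c : ℤ) : ℝ))) :=
      psi.hasCompactSupport.comp_homeomorph (Homeomorph.subRight (((a - c : ℤ)) : ℝ))
    have h2 : HasCompactSupport (fun u : ℝ => (w a : ℝ) * psi (u - ((a - c : ℤ) : ℝ))) :=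
      h1.mul_left
    simp only [Finset.sum_insert ha]
    exact h2.add ih

/-- the complex-valued weighted test function -/
noncomputable def wbumpC (S : Finset ℤ) (w : ℤ → ℝ≥0) (c : ℤ) : ℝ → ℂ :=
  fun u => ((wbumpSum S w c u : ℝ) : ℂ)

theorem contDiff_wbumpC (S : Finset ℤ) (w : ℤ → ℝ≥0) (c : ℤ) :
    ContDiff ℝ (⊤ : ℕ∞) (wbumpC S w c) :=
  Complex.ofRealCLM.contDiff.comp (contDiff_wbumpSum S w c)

theorem hasCompactSupport_wbumpC (S : Finset ℤ) (w : ℤ → ℝ≥0) (c : ℤ) :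
    HasCompactSupport (wbumpC S w c) :=
  (hasCompactSupport_wbumpSum S w c).comp_left Complex.ofReal_zero

/-- the weighted Schwartz test function -/
noncomputable def wbumpS (S : Finset ℤ) (w : ℤ → ℝ≥0) (c : ℤ) : SchwartzMap ℝ ℂ :=
  (hasCompactSupport_wbumpC S w c).toSchwartzMap (contDiff_wbumpC S w c)

theorem wbumpS_apply (S : Finset ℤ) (w : ℤ → ℝ≥0) (c : ℤ) (u : ℝ) :
    wbumpS S w c u = ((wbumpSum S w c u : ℝ) : ℂ) := rfl

/-- normalisation of a weight in `ℓ^p` of a finite set: the `p`-th powers sum to at most one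
(for `p = ∞`: all values are at most one) -/
def NormLe (p : ℝ≥0∞) (S : Finset ℤ) (w : ℤ → ℝ≥0) : Prop :=
  (p = ⊤ → ∀ a ∈ S, w a ≤ 1) ∧ (p ≠ ⊤ → ∑ a ∈ S, (w a : ℝ) ^ p.toReal ≤ 1)

theorem enorm_wbumpS (S : Finset ℤ) (w : ℤ → ℝ≥0) (c : ℤ) (u : ℝ) :
    ‖wbumpS S w c u‖ₑ = ENNReal.ofReal (wbumpSum S w c u) := by
  rw [wbumpS_apply, ← ofReal_norm, Complex.norm_real, Real.norm_eq_abs,
    abs_of_nonneg (wbumpSum_nonneg S w c u)]

theorem eLpNorm_wbumpS_le_top (S : Finset ℤ) (w : ℤ → ℝ≥0) (c : ℤ)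
    (h : ∀ a ∈ S, w a ≤ 1) : eLpNorm (wbumpS S w c) ⊤ volume ≤ 1 := by
  have hb : ∀ u, ‖wbumpS S w c u‖ ≤ 1 := by
    intro u
    rw [wbumpS_apply, Complex.norm_real, Real.norm_eq_abs,
      abs_of_nonneg (wbumpSum_nonneg S w c u)]
    by_cases h0 : wbumpSum S w c u = 0
    · rw [h0]; exact zero_le_one
    · obtain ⟨a, ha, h1, h2⟩ := wbumpSum_ne_zero h0
      rw [wbumpSum_eq_single w c h1 h2, if_pos ha]
      have hw : (w a : ℝ) ≤ 1 := by exact_mod_cast h a ha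
      calc (w a : ℝ) * psi (u - ((a - c : ℤ) : ℝ)) ≤ 1 * 1 :=
            mul_le_mul hw psi.le_one psi.nonneg zero_le_one
        _ = 1 := mul_one _
  have := eLpNorm_le_of_ae_bound (μ := volume) (p := ⊤) (Filter.Eventually.of_forall hb)
  simpa using this

theorem eLpNorm_wbumpS_le_fin (S : Finset ℤ) (w : ℤ → ℝ≥0) (c : ℤ) (p : ℝ≥0∞)
    (hp0 : p ≠ 0) (hptop : p ≠ ⊤) (h : ∑ a ∈ S, (w a : ℝ) ^ p.toReal ≤ 1) :
    eLpNorm (wbumpS S w c) p volume ≤ 1 := by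
  have hpos : 0 < p.toReal := ENNReal.toReal_pos hp0 hptop
  rw [eLpNorm_eq_lintegral_rpow_enorm_toReal hp0 hptop]
  apply ENNReal.rpow_le_one _ (by positivity)
  have hpt : ∀ u, ‖wbumpS S w c u‖ₑ ^ p.toReal ≤ ∑ a ∈ S,
      Set.indicator (Set.Ioo (((a - c : ℤ)) : ℝ) (((a - c : ℤ) : ℝ) + 1))
        (fun _ => ENNReal.ofReal ((w a : ℝ) ^ p.toReal)) u := by
    intro u
    rw [enorm_wbumpS]
    by_cases h0 : wbumpSum S w c u = 0
    · rw [h0, ENNReal.ofReal_zero, ENNReal.zero_rpow_of_pos hpos]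
      exact zero_le
    · obtain ⟨a, ha, h1, h2⟩ := wbumpSum_ne_zero h0
      rw [wbumpSum_eq_single w c h1 h2, if_pos ha]
      have hle : (w a : ℝ) * psi (u - ((a - c : ℤ) : ℝ)) ≤ (w a : ℝ) := by
        calc (w a : ℝ) * psi (u - ((a - c : ℤ) : ℝ)) ≤ (w a : ℝ) * 1 :=
              mul_le_mul_of_nonneg_left psi.le_one (NNReal.coe_nonneg _)
          _ = (w a : ℝ) := mul_one _
      calc ENNReal.ofReal ((w a : ℝ) * psi (u - ((a - c : ℤ) : ℝ))) ^ p.toReal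
          ≤ ENNReal.ofReal (w a : ℝ) ^ p.toReal :=
            ENNReal.rpow_le_rpow (ENNReal.ofReal_le_ofReal hle) hpos.le
        _ = ENNReal.ofReal ((w a : ℝ) ^ p.toReal) :=
            ENNReal.ofReal_rpow_of_nonneg (NNReal.coe_nonneg _) hpos.le
        _ = Set.indicator (Set.Ioo (((a - c : ℤ)) : ℝ) (((a - c : ℤ) : ℝ) + 1))
              (fun _ => ENNReal.ofReal ((w a : ℝ) ^ p.toReal)) u := by
            rw [Set.indicator_of_mem (Set.mem_Ioo.mpr ⟨h1, h2⟩)]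
        _ ≤ _ := Finset.single_le_sum
            (f := fun b : ℤ => Set.indicator (Set.Ioo (((b - c : ℤ)) : ℝ) (((b - c : ℤ) : ℝ) + 1))
              (fun _ => ENNReal.ofReal ((w b : ℝ) ^ p.toReal)) u) (fun _ _ => zero_le) ha
  calc ∫⁻ u, ‖wbumpS S w c u‖ₑ ^ p.toReal
      ≤ ∫⁻ u, ∑ a ∈ S, Set.indicator (Set.Ioo (((a - c : ℤ)) : ℝ) (((a - c : ℤ) : ℝ) + 1))
        (fun _ => ENNReal.ofReal ((w a : ℝ) ^ p.toReal)) u := lintegral_mono hpt
    _ = ∑ a ∈ S, ∫⁻ u, Set.indicator (Set.Ioo (((a - c : ℤ)) : ℝ) (((a - c : ℤ) : ℝ) + 1))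
        (fun _ => ENNReal.ofReal ((w a : ℝ) ^ p.toReal)) u := by
        apply lintegral_finsetSum
        intro a _
        exact measurable_const.indicator measurableSet_Ioo
    _ = ∑ a ∈ S, ENNReal.ofReal ((w a : ℝ) ^ p.toReal) := by
        apply Finset.sum_congr rfl
        intro a _
        rw [lintegral_indicator_const measurableSet_Ioo, Real.volume_Ioo]
        simp
    _ = ENNReal.ofReal (∑ a ∈ S, (w a : ℝ) ^ p.toReal) := by
        rw [ENNReal.ofReal_sum_of_nonneg]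
        intro a _
        exact Real.rpow_nonneg (NNReal.coe_nonneg _) _
    _ ≤ 1 := by
        rw [← ENNReal.ofReal_one]
        exact ENNReal.ofReal_le_ofReal h

theorem eLpNorm_wbumpS_le (S : Finset ℤ) (w : ℤ → ℝ≥0) (c : ℤ) (p : ℝ≥0∞) (hp0 : p ≠ 0)
    (h : NormLe p S w) : eLpNorm (wbumpS S w c) p volume ≤ 1 := by
  by_cases hptop : p = ⊤
  · rw [hptop]
    exact eLpNorm_wbumpS_le_top S w c (h.1 hptop)
  · exact eLpNorm_wbumpS_le_fin S w c p hp0 hptop (h.2 hptop)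

end Vale.Agent.Lib.P141
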