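import Mathlib
import Vale.Agent.Lib.P141.WBump

namespace Vale.Agent.Lib.P141

open MeasureTheory Filter Topology
open scoped ENNReal NNReal

/-- the real integrand of the trilinear Hilbert transform of three weighted bump sums; the
second and third families of bumps are translated by `c` and `2c` -/
noncomputable def gIntW (S1 S2 S3 : Finset ℤ) (w1 w2 w3 : ℤ → ℝ≥0) (c : ℤ) (x t : ℝ) : ℝ :=
  wbumpSum S1 w1 0 (x - t) * wbumpSum S2 w2 c (x - 2 * t) * wbumpSum S3 w3 (2 * c) (x - 3 * t)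
    / t

section

variable {S1 S2 S3 : Finset ℤ} {w1 w2 w3 : ℤ → ℝ≥0} {c : ℤ} {L : ℝ}

theorem tW_range
    (hsep : ∀ a ∈ S1, ∀ b ∈ S2, (2 : ℝ) ≤ (a : ℝ) - b + c ∧ (a : ℝ) - b + c + 1 ≤ L)
    {x t : ℝ} (h1 : wbumpSum S1 w1 0 (x - t) ≠ 0) (h2 : wbumpSum S2 w2 c (x - 2 * t) ≠ 0) :
    1 < t ∧ t < L := by
  obtain ⟨a, ha, ha1, ha2⟩ := wbumpSum_ne_zero h1
  obtain ⟨b, hb, hb1, hb2⟩ := wbumpSum_ne_zero h2
  obtain ⟨e1, e2⟩ := hsep a ha b hb
  push_cast at ha1 ha2 hb1 hb2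
  constructor <;> linarith

theorem gIntW_ne_zero
    (hsep : ∀ a ∈ S1, ∀ b ∈ S2, (2 : ℝ) ≤ (a : ℝ) - b + c ∧ (a : ℝ) - b + c + 1 ≤ L)
    {x t : ℝ} (h : gIntW S1 S2 S3 w1 w2 w3 c x t ≠ 0) : 1 < t ∧ t < L := by
  unfold gIntW at h
  have h' := (div_ne_zero_iff.mp h).1
  have h'' := mul_ne_zero_iff.mp h'
  have h3 := mul_ne_zero_iff.mp h''.1
  exact tW_range hsep h3.1 h3.2

theorem gIntW_nonneg
    (hsep : ∀ a ∈ S1, ∀ b ∈ S2, (2 : ℝ) ≤ (a : ℝ) - b + c ∧ (a : ℝ) - b + c + 1 ≤ L)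
    (x t : ℝ) : 0 ≤ gIntW S1 S2 S3 w1 w2 w3 c x t := by
  by_cases h : gIntW S1 S2 S3 w1 w2 w3 c x t = 0
  · rw [h]
  · have := (gIntW_ne_zero hsep h).1
    unfold gIntW
    apply div_nonneg
    · exact mul_nonneg (mul_nonneg (wbumpSum_nonneg _ _ _ _) (wbumpSum_nonneg _ _ _ _))
        (wbumpSum_nonneg _ _ _ _)
    · linarith

theorem gIntW_le_indicator
    (hsep : ∀ a ∈ S1, ∀ b ∈ S2, (2 : ℝ) ≤ (a : ℝ) - b + c ∧ (a : ℝ) - b + c + 1 ≤ L)
    (x t : ℝ) :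
    ‖gIntW S1 S2 S3 w1 w2 w3 c x t‖ ≤ Set.indicator (Set.Icc (1 : ℝ) L)
      (fun _ => (∑ a ∈ S1, (w1 a : ℝ)) * (∑ a ∈ S2, (w2 a : ℝ)) * (∑ a ∈ S3, (w3 a : ℝ))) t := by
  have hW1 : 0 ≤ ∑ a ∈ S1, (w1 a : ℝ) := Finset.sum_nonneg fun _ _ => NNReal.coe_nonneg _
  have hW2 : 0 ≤ ∑ a ∈ S2, (w2 a : ℝ) := Finset.sum_nonneg fun _ _ => NNReal.coe_nonneg _
  have hW3 : 0 ≤ ∑ a ∈ S3, (w3 a : ℝ) := Finset.sum_nonneg fun _ _ => NNReal.coe_nonneg _
  by_cases h : gIntW S1 S2 S3 w1 w2 w3 c x t = 0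
  · rw [h, norm_zero]
    exact Set.indicator_nonneg (fun _ _ => by positivity) _
  · obtain ⟨h1, h2⟩ := gIntW_ne_zero hsep h
    rw [Set.indicator_of_mem (Set.mem_Icc.mpr ⟨h1.le, h2.le⟩), Real.norm_eq_abs,
      abs_of_nonneg (gIntW_nonneg hsep x t)]
    unfold gIntW
    rw [div_le_iff₀ (by linarith)]
    have a1 := wbumpSum_le_sum S1 w1 0 (x - t)
    have a2 := wbumpSum_le_sum S2 w2 c (x - 2 * t)
    have a3 := wbumpSum_le_sum S3 w3 (2 * c) (x - 3 * t)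
    have b1 := wbumpSum_nonneg S1 w1 0 (x - t)
    have b2 := wbumpSum_nonneg S2 w2 c (x - 2 * t)
    have b3 := wbumpSum_nonneg S3 w3 (2 * c) (x - 3 * t)
    calc wbumpSum S1 w1 0 (x - t) * wbumpSum S2 w2 c (x - 2 * t)
          * wbumpSum S3 w3 (2 * c) (x - 3 * t)
        ≤ (∑ a ∈ S1, (w1 a : ℝ)) * (∑ a ∈ S2, (w2 a : ℝ)) * (∑ a ∈ S3, (w3 a : ℝ)) := by
          gcongr
      _ = (∑ a ∈ S1, (w1 a : ℝ)) * (∑ a ∈ S2, (w2 a : ℝ)) * (∑ a ∈ S3, (w3 a : ℝ)) * 1 := by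
          rw [mul_one]
      _ ≤ (∑ a ∈ S1, (w1 a : ℝ)) * (∑ a ∈ S2, (w2 a : ℝ)) * (∑ a ∈ S3, (w3 a : ℝ)) * t := by
          apply mul_le_mul_of_nonneg_left h1.le
          positivity

theorem measurable_gIntW (x : ℝ) : Measurable (gIntW S1 S2 S3 w1 w2 w3 c x) := by
  unfold gIntW
  have h1 : Continuous (fun t : ℝ => wbumpSum S1 w1 0 (x - t)) :=
    (continuous_wbumpSum S1 w1 0).comp (by fun_prop)
  have h2 : Continuous (fun t : ℝ => wbumpSum S2 w2 c (x - 2 * t)) :=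
    (continuous_wbumpSum S2 w2 c).comp (by fun_prop)
  have h3 : Continuous (fun t : ℝ => wbumpSum S3 w3 (2 * c) (x - 3 * t)) :=
    (continuous_wbumpSum S3 w3 (2 * c)).comp (by fun_prop)
  exact ((h1.measurable.mul h2.measurable).mul h3.measurable).div measurable_id

theorem integrable_gIntW
    (hsep : ∀ a ∈ S1, ∀ b ∈ S2, (2 : ℝ) ≤ (a : ℝ) - b + c ∧ (a : ℝ) - b + c + 1 ≤ L)
    (x : ℝ) : Integrable (gIntW S1 S2 S3 w1 w2 w3 c x) := by
  refine Integrable.mono' (g := Set.indicator (Set.Icc (1 : ℝ) L)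
    (fun _ => (∑ a ∈ S1, (w1 a : ℝ)) * (∑ a ∈ S2, (w2 a : ℝ)) * (∑ a ∈ S3, (w3 a : ℝ)))) ?_
    (measurable_gIntW x).aestronglyMeasurable (Eventually.of_forall (gIntW_le_indicator hsep x))
  rw [integrable_indicator_iff measurableSet_Icc]
  exact integrableOn_const (by simp)

theorem THT_wbump_eq
    (hsep : ∀ a ∈ S1, ∀ b ∈ S2, (2 : ℝ) ≤ (a : ℝ) - b + c ∧ (a : ℝ) - b + c + 1 ≤ L)
    (x : ℝ) :
    THT (wbumpS S1 w1 0) (wbumpS S2 w2 c) (wbumpS S3 w3 (2 * c)) x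
      = ((∫ t, gIntW S1 S2 S3 w1 w2 w3 c x t : ℝ) : ℂ) := by
  unfold THT
  apply Tendsto.limUnder_eq
  apply tendsto_const_nhds.congr'
  have hev : ∀ᶠ q : ℝ × ℝ in (𝓝[>] (0 : ℝ)) ×ˢ (atTop : Filter ℝ), q.1 ≤ 1 ∧ L ≤ q.2 :=
    ((eventually_le_nhds zero_lt_one).filter_mono nhdsWithin_le_nhds).prod_mk
      (eventually_ge_atTop L)
  filter_upwards [hev] with q hq
  unfold truncTHT
  have hint : ∀ t : ℝ, wbumpS S1 w1 0 (x - t) * wbumpS S2 w2 c (x - 2 * t)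
      * wbumpS S3 w3 (2 * c) (x - 3 * t) / (t : ℂ)
      = ((gIntW S1 S2 S3 w1 w2 w3 c x t : ℝ) : ℂ) := by
    intro t
    simp only [wbumpS_apply, gIntW]
    push_cast
    ring
  simp only [hint]
  rw [setIntegral_eq_integral_of_forall_compl_eq_zero]
  · exact integral_ofReal.symm
  · intro t ht
    by_contra hne
    have hne' : gIntW S1 S2 S3 w1 w2 w3 c x t ≠ 0 := fun h => hne (by rw [h]; simp)
    obtain ⟨h1, h2⟩ := gIntW_ne_zero hsep hne'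
    apply ht
    show q.1 < |t| ∧ |t| < q.2
    rw [abs_of_pos (by linarith)]
    constructor <;> linarith

/-- lower bound for the integral at a point near `x + c`, from a finite family `F` of
progressions with first term `x` -/
theorem integral_gIntW_ge
    (hsep : ∀ a ∈ S1, ∀ b ∈ S2, (2 : ℝ) ≤ (a : ℝ) - b + c ∧ (a : ℝ) - b + c + 1 ≤ L)
    (x : ℤ) (F : Finset (ℤ × ℤ))
    (hF : ∀ d ∈ F, d.1 = x ∧ d.1 - 1 * d.2 ∈ S1 ∧ d.1 - 2 * d.2 ∈ S2 ∧ d.1 - 3 * d.2 ∈ S3)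
    {y : ℝ} (hy1 : (x : ℝ) + c + 5/8 ≤ y) (hy2 : y ≤ (x : ℝ) + c + 3/4) :
    1 / (8 * L) * ∑ d ∈ F, ((w1 (d.1 - 1 * d.2) : ℝ) * (w2 (d.1 - 2 * d.2) : ℝ)
        * (w3 (d.1 - 3 * d.2) : ℝ))
      ≤ ∫ t, gIntW S1 S2 S3 w1 w2 w3 c y t := by
  set cf : ℤ × ℤ → ℝ := fun d => (w1 (d.1 - 1 * d.2) : ℝ) * (w2 (d.1 - 2 * d.2) : ℝ)
      * (w3 (d.1 - 3 * d.2) : ℝ) with hcf
  have hcf0 : ∀ d, 0 ≤ cf d := fun d => by rw [hcf]; positivity
  -- the range of the shift parameter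
  have hrange : ∀ d ∈ F, (2 : ℝ) ≤ (d.2 : ℝ) + c ∧ (d.2 : ℝ) + c + 1 ≤ L := by
    intro d hd
    obtain ⟨-, h1, h2, -⟩ := hF d hd
    obtain ⟨e1, e2⟩ := hsep _ h1 _ h2
    push_cast at e1 e2
    constructor <;> linarith
  have key : ∀ d ∈ F, ∀ t ∈ Set.Icc ((d.2 : ℝ) + c) ((d.2 : ℝ) + c + 1/8),
      cf d / L ≤ gIntW S1 S2 S3 w1 w2 w3 c y t := by
    intro d hd t ht
    obtain ⟨ht1, ht2⟩ := ht
    obtain ⟨hx, h1, h2, h3⟩ := hF d hd
    obtain ⟨r1, r2⟩ := hrange d hd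
    have hxR : (d.1 : ℝ) = (x : ℝ) := by exact_mod_cast hx
    have b1 : (w1 (d.1 - 1 * d.2) : ℝ) ≤ wbumpSum S1 w1 0 (y - t) :=
      le_wbumpSum w1 0 h1 (by push_cast; linarith) (by push_cast; linarith)
    have b2 : (w2 (d.1 - 2 * d.2) : ℝ) ≤ wbumpSum S2 w2 c (y - 2 * t) :=
      le_wbumpSum w2 c h2 (by push_cast; linarith) (by push_cast; linarith)
    have b3 : (w3 (d.1 - 3 * d.2) : ℝ) ≤ wbumpSum S3 w3 (2 * c) (y - 3 * t) :=
      le_wbumpSum w3 (2 * c) h3 (by push_cast; linarith) (by push_cast; linarith)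
    have htpos : 0 < t := by linarith
    have htL : t ≤ L := by linarith
    have hLpos : 0 < L := by linarith
    unfold gIntW
    have hnum : cf d ≤ wbumpSum S1 w1 0 (y - t) * wbumpSum S2 w2 c (y - 2 * t)
        * wbumpSum S3 w3 (2 * c) (y - 3 * t) := by
      rw [hcf]
      have n1 := NNReal.coe_nonneg (w1 (d.1 - 1 * d.2))
      have n2 := NNReal.coe_nonneg (w2 (d.1 - 2 * d.2))
      have n3 := NNReal.coe_nonneg (w3 (d.1 - 3 * d.2))
      have m1 := wbumpSum_nonneg S1 w1 0 (y - t)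
      have m2 := wbumpSum_nonneg S2 w2 c (y - 2 * t)
      exact mul_le_mul (mul_le_mul b1 b2 n2 m1) b3 n3 (mul_nonneg m1 m2)
    calc cf d / L ≤ cf d / t := div_le_div_of_nonneg_left (hcf0 d) htpos htL
      _ ≤ _ := div_le_div_of_nonneg_right hnum htpos.le
  set φ : ℝ → ℝ := fun t => ∑ d ∈ F,
      Set.indicator (Set.Icc ((d.2 : ℝ) + c) ((d.2 : ℝ) + c + 1/8)) (fun _ => cf d / L) t
    with hφ
  have hLpos : ∀ d ∈ F, 0 < L := fun d hd => by
    obtain ⟨r1, r2⟩ := hrange d hd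
    linarith
  have hφle : ∀ t, φ t ≤ gIntW S1 S2 S3 w1 w2 w3 c y t := by
    intro t
    by_cases hex : ∃ d0 ∈ F, t ∈ Set.Icc ((d0.2 : ℝ) + c) ((d0.2 : ℝ) + c + 1/8)
    · obtain ⟨d0, hd0, ht0⟩ := hex
      have hsingle : φ t = cf d0 / L := by
        show (∑ d ∈ F, Set.indicator (Set.Icc ((d.2 : ℝ) + c) ((d.2 : ℝ) + c + 1/8))
          (fun _ => cf d / L) t) = cf d0 / L
        rw [Finset.sum_eq_single_of_mem d0 hd0]
        · rw [Set.indicator_of_mem ht0]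
        · intro b hb hne
          apply Set.indicator_of_notMem
          intro hmem
          apply hne
          obtain ⟨m1, m2⟩ := hmem
          obtain ⟨m3, m4⟩ := ht0
          have e1 : (b.2 : ℝ) < d0.2 + 1 := by linarith
          have e2 : (d0.2 : ℝ) < b.2 + 1 := by linarith
          have e1' : b.2 < d0.2 + 1 := by exact_mod_cast e1
          have e2' : d0.2 < b.2 + 1 := by exact_mod_cast e2
          have h2eq : b.2 = d0.2 := by omega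
          have h1eq : b.1 = d0.1 := by rw [(hF b hb).1, (hF d0 hd0).1]
          exact Prod.ext h1eq h2eq
      rw [hsingle]
      exact key d0 hd0 t ht0
    · push Not at hex
      have hzero : φ t = 0 := by
        show (∑ d ∈ F, Set.indicator (Set.Icc ((d.2 : ℝ) + c) ((d.2 : ℝ) + c + 1/8))
          (fun _ => cf d / L) t) = 0
        apply Finset.sum_eq_zero
        intro d hd
        exact Set.indicator_of_notMem (hex d hd) _
      rw [hzero]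
      exact gIntW_nonneg hsep y t
  have hφint : ∀ d ∈ F, Integrable
      (Set.indicator (Set.Icc ((d.2 : ℝ) + c) ((d.2 : ℝ) + c + 1/8)) (fun _ => cf d / L)) := by
    intro d _
    rw [integrable_indicator_iff measurableSet_Icc]
    exact integrableOn_const (by simp)
  have hφintegral : ∫ t, φ t = 1 / (8 * L) * ∑ d ∈ F, cf d := by
    rw [hφ, integral_finsetSum F hφint, Finset.mul_sum]
    apply Finset.sum_congr rfl
    intro d hd
    rw [integral_indicator measurableSet_Icc, setIntegral_const]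
    simp only [Measure.real, Real.volume_Icc, smul_eq_mul]
    have e : (d.2 : ℝ) + c + 1/8 - ((d.2 : ℝ) + c) = 1/8 := by ring
    rw [e, ENNReal.toReal_ofReal (by norm_num)]
    have := hLpos d hd
    field_simp
  rw [← hφintegral]
  apply integral_mono_of_nonneg
  · refine Eventually.of_forall (fun t => ?_)
    show 0 ≤ (∑ d ∈ F, Set.indicator (Set.Icc ((d.2 : ℝ) + c) ((d.2 : ℝ) + c + 1/8))
          (fun _ => cf d / L) t)
    apply Finset.sum_nonneg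
    intro d hd
    have := hLpos d hd
    exact Set.indicator_nonneg (fun _ _ => div_nonneg (hcf0 d) this.le) t
  · exact integrable_gIntW hsep y
  · exact Eventually.of_forall hφle

end

end Vale.Agent.Lib.P141
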