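import Mathlib

namespace Vale.Agent.Lib.P141

/-- For a finite set `P` of pairs `(x, t)` of integers carrying weights `k`, the total weight of
the pairs `e ∈ P` with `e.1 - j * e.2 = a`. A pair `(x, t)` stands for the progression
`x, x - t, x - 2t, x - 3t`, so for `j = 0, 1, 2, 3` this is the total weight of the
progressions whose first, second, third, fourth term equals `a`. -/
def fiberWeight (P : Finset (ℤ × ℤ)) (k : ℤ × ℤ → ℕ) (j a : ℤ) : ℕ :=
  ∑ e ∈ P.filter (fun e => e.1 - j * e.2 = a), k e

end Vale.Agent.Lib.P141
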