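import Mathlib
import Vale.Agent.Lib.P141.WAnalysis

namespace Vale.Agent.Lib.P141

open MeasureTheory Filter Topology
open scoped ENNReal NNReal

/-- the product of the three weights along the progression `(x, t)` -/
noncomputable def wprod (w1 w2 w3 : ℤ → ℝ≥0) (d : ℤ × ℤ) : ℝ :=
  (w1 (d.1 - 1 * d.2) : ℝ) * (w2 (d.1 - 2 * d.2) : ℝ) * (w3 (d.1 - 3 * d.2) : ℝ)

theorem wprod_nonneg (w1 w2 w3 : ℤ → ℝ≥0) (d : ℤ × ℤ) : 0 ≤ wprod w1 w2 w3 d := by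
  unfold wprod
  positivity

/-- the weighted number of progressions of `Q` with first term `x` -/
noncomputable def wcount (Q : Finset (ℤ × ℤ)) (g : ℤ × ℤ → ℝ) (x : ℤ) : ℝ :=
  ∑ d ∈ Q.filter (fun d => d.1 = x), g d

theorem wcount_nonneg (Q : Finset (ℤ × ℤ)) (g : ℤ × ℤ → ℝ) (hg : ∀ d, 0 ≤ g d) (x : ℤ) :
    0 ≤ wcount Q g x :=
  Finset.sum_nonneg fun d _ => hg d

/-- the discrete trilinear sum attached to a weighted configuration -/
noncomputable def valSum (Q : Finset (ℤ × ℤ)) (g : ℤ × ℤ → ℝ) (ρ : ℝ) : ℝ :=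
  ∑ x ∈ Q.image Prod.fst, (wcount Q g x) ^ ρ

section

variable {S1 S2 S3 : Finset ℤ} {w1 w2 w3 : ℤ → ℝ≥0} {c : ℤ} {L : ℝ}

theorem lintegral_THT_wge
    (hsep : ∀ a ∈ S1, ∀ b ∈ S2, (2 : ℝ) ≤ (a : ℝ) - b + c ∧ (a : ℝ) - b + c + 1 ≤ L)
    (Q : Finset (ℤ × ℤ))
    (hQ : ∀ d ∈ Q, d.1 - 1 * d.2 ∈ S1 ∧ d.1 - 2 * d.2 ∈ S2 ∧ d.1 - 3 * d.2 ∈ S3)
    (hL : 0 < L) (ρ : ℝ) (hρ : 0 < ρ) :
    ∑ x ∈ Q.image Prod.fst,
        ENNReal.ofReal ((1 / (8 * L) * wcount Q (wprod w1 w2 w3) x) ^ ρ) * ENNReal.ofReal (1 / 8)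
      ≤ ∫⁻ y, ‖THT (wbumpS S1 w1 0) (wbumpS S2 w2 c) (wbumpS S3 w3 (2 * c)) y‖ₑ ^ ρ := by
  set X := Q.image Prod.fst with hX
  set I : ℤ → Set ℝ := fun x => Set.Icc ((x : ℝ) + c + 5/8) ((x : ℝ) + c + 3/4) with hI
  have hdisj : ∀ x x' : ℤ, ∀ y : ℝ, y ∈ I x → y ∈ I x' → x = x' := by
    intro x x' y hy hy'
    obtain ⟨y1, y2⟩ := hy
    obtain ⟨y3, y4⟩ := hy'
    have e1 : (x : ℝ) < x' + 1 := by linarith
    have e2 : (x' : ℝ) < x + 1 := by linarith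
    have e1' : x < x' + 1 := by exact_mod_cast e1
    have e2' : x' < x + 1 := by exact_mod_cast e2
    omega
  have hval0 : ∀ x, 0 ≤ 1 / (8 * L) * wcount Q (wprod w1 w2 w3) x := by
    intro x
    exact mul_nonneg (by positivity) (wcount_nonneg Q _ (wprod_nonneg w1 w2 w3) x)
  have hpt : ∀ y, ∑ x ∈ X, Set.indicator (I x)
      (fun _ => ENNReal.ofReal ((1 / (8 * L) * wcount Q (wprod w1 w2 w3) x) ^ ρ)) y
      ≤ ‖THT (wbumpS S1 w1 0) (wbumpS S2 w2 c) (wbumpS S3 w3 (2 * c)) y‖ₑ ^ ρ := by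
    intro y
    by_cases hex : ∃ x0 ∈ X, y ∈ I x0
    · obtain ⟨x0, hx0, hy⟩ := hex
      rw [Finset.sum_eq_single_of_mem x0 hx0]
      · rw [Set.indicator_of_mem hy]
        have hF : ∀ d ∈ Q.filter (fun d => d.1 = x0),
            d.1 = x0 ∧ d.1 - 1 * d.2 ∈ S1 ∧ d.1 - 2 * d.2 ∈ S2 ∧ d.1 - 3 * d.2 ∈ S3 := by
          intro d hd
          rw [Finset.mem_filter] at hd
          exact ⟨hd.2, hQ d hd.1⟩
        have hge := integral_gIntW_ge (w1 := w1) (w2 := w2) (w3 := w3) hsep x0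
          (Q.filter (fun d => d.1 = x0)) hF hy.1 hy.2
        rw [THT_wbump_eq hsep y, ← ofReal_norm, Complex.norm_real, Real.norm_eq_abs,
          ← ENNReal.ofReal_rpow_of_nonneg (hval0 x0) hρ.le]
        apply ENNReal.rpow_le_rpow _ hρ.le
        apply ENNReal.ofReal_le_ofReal
        exact hge.trans (le_abs_self _)
      · intro b _ hne
        apply Set.indicator_of_notMem
        intro hmem
        exact hne (hdisj b x0 y hmem hy)
    · push Not at hex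
      rw [Finset.sum_eq_zero]
      · exact zero_le
      · intro x hx
        exact Set.indicator_of_notMem (hex x hx) _
  calc ∑ x ∈ X, ENNReal.ofReal ((1 / (8 * L) * wcount Q (wprod w1 w2 w3) x) ^ ρ)
        * ENNReal.ofReal (1 / 8)
      = ∑ x ∈ X, ∫⁻ y, Set.indicator (I x)
          (fun _ => ENNReal.ofReal ((1 / (8 * L) * wcount Q (wprod w1 w2 w3) x) ^ ρ)) y := by
        apply Finset.sum_congr rfl
        intro x _
        rw [lintegral_indicator_const measurableSet_Icc, Real.volume_Icc]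
        congr 2
        ring
    _ = ∫⁻ y, ∑ x ∈ X, Set.indicator (I x)
          (fun _ => ENNReal.ofReal ((1 / (8 * L) * wcount Q (wprod w1 w2 w3) x) ^ ρ)) y := by
        rw [lintegral_finsetSum]
        intro x _
        exact measurable_const.indicator measurableSet_Icc
    _ ≤ _ := lintegral_mono hpt

/-- the discrete inequality forced by boundedness: weights normalised in `ℓ^{pᵢ}` -/
theorem discrete_ineq
    (hsep : ∀ a ∈ S1, ∀ b ∈ S2, (2 : ℝ) ≤ (a : ℝ) - b + c ∧ (a : ℝ) - b + c + 1 ≤ L)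
    (Q : Finset (ℤ × ℤ))
    (hQ : ∀ d ∈ Q, d.1 - 1 * d.2 ∈ S1 ∧ d.1 - 2 * d.2 ∈ S2 ∧ d.1 - 3 * d.2 ∈ S3)
    (hL : 0 < L) (p₁ p₂ p₃ r : ℝ≥0∞) (hr0 : r ≠ 0) (hrtop : r ≠ ⊤)
    (hp1 : p₁ ≠ 0) (hp2 : p₂ ≠ 0) (hp3 : p₃ ≠ 0)
    (hN1 : NormLe p₁ S1 w1) (hN2 : NormLe p₂ S2 w2) (hN3 : NormLe p₃ S3 w3)
    (C : NNReal)
    (hC : ∀ f₁ f₂ f₃ : SchwartzMap ℝ ℂ, eLpNorm (THT f₁ f₂ f₃) r volume ≤
      (C : ℝ≥0∞) * (eLpNorm f₁ p₁ volume * eLpNorm f₂ p₂ volume * eLpNorm f₃ p₃ volume)) :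
    valSum Q (wprod w1 w2 w3) r.toReal ≤ 8 * (8 * L * (C : ℝ)) ^ r.toReal := by
  have hρ : 0 < r.toReal := ENNReal.toReal_pos hr0 hrtop
  have hup := hC (wbumpS S1 w1 0) (wbumpS S2 w2 c) (wbumpS S3 w3 (2 * c))
  have hle1 : eLpNorm (THT (wbumpS S1 w1 0) (wbumpS S2 w2 c) (wbumpS S3 w3 (2 * c))) r volume
      ≤ (C : ℝ≥0∞) := by
    refine hup.trans ?_
    calc (C : ℝ≥0∞) * (eLpNorm (wbumpS S1 w1 0) p₁ volume * eLpNorm (wbumpS S2 w2 c) p₂ volume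
          * eLpNorm (wbumpS S3 w3 (2 * c)) p₃ volume)
        ≤ (C : ℝ≥0∞) * (1 * 1 * 1) := by
          gcongr
          · exact eLpNorm_wbumpS_le S1 w1 0 p₁ hp1 hN1
          · exact eLpNorm_wbumpS_le S2 w2 c p₂ hp2 hN2
          · exact eLpNorm_wbumpS_le S3 w3 (2 * c) p₃ hp3 hN3
      _ = C := by simp
  rw [eLpNorm_eq_lintegral_rpow_enorm_toReal hr0 hrtop] at hle1
  have hle2 : ∫⁻ y, ‖THT (wbumpS S1 w1 0) (wbumpS S2 w2 c) (wbumpS S3 w3 (2 * c)) y‖ₑ ^ r.toReal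
      ≤ (C : ℝ≥0∞) ^ r.toReal := by
    have := ENNReal.rpow_le_rpow hle1 hρ.le
    rwa [← ENNReal.rpow_mul, one_div, inv_mul_cancel₀ hρ.ne', ENNReal.rpow_one] at this
  have hchain := (lintegral_THT_wge hsep Q hQ hL r.toReal hρ).trans hle2
  have hval0 : ∀ x, 0 ≤ 1 / (8 * L) * wcount Q (wprod w1 w2 w3) x := by
    intro x
    exact mul_nonneg (by positivity) (wcount_nonneg Q _ (wprod_nonneg w1 w2 w3) x)
  have hsum : ENNReal.ofReal (∑ x ∈ Q.image Prod.fst,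
      (1 / (8 * L) * wcount Q (wprod w1 w2 w3) x) ^ r.toReal * (1 / 8))
      ≤ ENNReal.ofReal ((C : ℝ) ^ r.toReal) := by
    rw [ENNReal.ofReal_sum_of_nonneg (fun x _ =>
      mul_nonneg (Real.rpow_nonneg (hval0 x) _) (by norm_num))]
    rw [← ENNReal.ofReal_rpow_of_nonneg (NNReal.coe_nonneg C) hρ.le, ENNReal.ofReal_coe_nnreal]
    refine le_trans (le_of_eq ?_) hchain
    apply Finset.sum_congr rfl
    intro x _
    rw [ENNReal.ofReal_mul (Real.rpow_nonneg (hval0 x) _)]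
  have hreal := (ENNReal.ofReal_le_ofReal_iff (Real.rpow_nonneg (NNReal.coe_nonneg C) _)).mp hsum
  set u : ℝ := (1 / (8 * L)) ^ r.toReal with hu
  set v : ℝ := (8 * L) ^ r.toReal with hv
  have huv : u * v = 1 := by
    rw [hu, hv, ← Real.mul_rpow (by positivity) (by positivity)]
    have : 1 / (8 * L) * (8 * L) = 1 := by field_simp
    rw [this, Real.one_rpow]
  have hv0 : 0 ≤ v := Real.rpow_nonneg (by positivity) _
  have hrew : ∑ x ∈ Q.image Prod.fst,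
      (1 / (8 * L) * wcount Q (wprod w1 w2 w3) x) ^ r.toReal * (1 / 8)
      = valSum Q (wprod w1 w2 w3) r.toReal * (u * (1 / 8)) := by
    unfold valSum
    rw [Finset.sum_mul]
    apply Finset.sum_congr rfl
    intro x _
    rw [Real.mul_rpow (by positivity) (wcount_nonneg Q _ (wprod_nonneg w1 w2 w3) x)]
    ring
  rw [hrew] at hreal
  have hCL : (8 * L * (C : ℝ)) ^ r.toReal = v * (C : ℝ) ^ r.toReal := by
    rw [hv, ← Real.mul_rpow (by positivity) (NNReal.coe_nonneg C)]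
  rw [hCL]
  calc valSum Q (wprod w1 w2 w3) r.toReal
      = (valSum Q (wprod w1 w2 w3) r.toReal * (u * (1 / 8))) * (8 * v) := by
        have : valSum Q (wprod w1 w2 w3) r.toReal * (u * (1 / 8)) * (8 * v)
            = valSum Q (wprod w1 w2 w3) r.toReal * (u * v) := by ring
        rw [this, huv, mul_one]
    _ ≤ (C : ℝ) ^ r.toReal * (8 * v) := mul_le_mul_of_nonneg_right hreal (by positivity)
    _ = 8 * (v * (C : ℝ) ^ r.toReal) := by ring

end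

end Vale.Agent.Lib.P141
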