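import Mathlib
import Vale.Agent.Lib.P141.WDiscrete
import Vale.Agent.Lib.P141.Config

namespace Vale.Agent.Lib.P141

open scoped ENNReal NNReal

/-- the set of integers `B * s + a` with `s ∈ S`, `a ∈ A` -/
def sTensor (B : ℤ) (S A : Finset ℤ) : Finset ℤ :=
  Finset.image₂ (fun s a => B * s + a) S A

/-- weight on the next level: the largest product over the decompositions `n = B * s + a` -/
noncomputable def wTensor (B : ℤ) (S A : Finset ℤ) (W lam : ℤ → ℝ≥0) (n : ℤ) : ℝ≥0 :=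
  ((S ×ˢ A).filter (fun sa => B * sa.1 + sa.2 = n)).sup (fun sa => W sa.1 * lam sa.2)

theorem le_wTensor (B : ℤ) {S A : Finset ℤ} (W lam : ℤ → ℝ≥0) {s a : ℤ} (hs : s ∈ S)
    (ha : a ∈ A) : W s * lam a ≤ wTensor B S A W lam (B * s + a) := by
  unfold wTensor
  have hmem : (s, a) ∈ (S ×ˢ A).filter (fun sa => B * sa.1 + sa.2 = B * s + a) :=
    Finset.mem_filter.mpr ⟨Finset.mk_mem_product hs ha, rfl⟩
  exact Finset.le_sup (f := fun sa : ℤ × ℤ => W sa.1 * lam sa.2) hmem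

theorem normLe_wTensor (B : ℤ) (S A : Finset ℤ) (W lam : ℤ → ℝ≥0) (p : ℝ≥0∞) (hp0 : p ≠ 0)
    (hS : NormLe p S W) (hA : NormLe p A lam) :
    NormLe p (sTensor B S A) (wTensor B S A W lam) := by
  constructor
  · intro hp n _
    unfold wTensor
    apply Finset.sup_le
    intro sa hsa
    rw [Finset.mem_filter, Finset.mem_product] at hsa
    calc W sa.1 * lam sa.2 ≤ 1 * 1 := mul_le_mul' (hS.1 hp _ hsa.1.1) (hA.1 hp _ hsa.1.2)
      _ = 1 := mul_one 1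
  · intro hp
    have hS' := hS.2 hp
    have hA' := hA.2 hp
    have hq : 0 < p.toReal := ENNReal.toReal_pos hp0 hp
    have hpt : ∀ n, ((wTensor B S A W lam n : ℝ≥0) : ℝ) ^ p.toReal ≤
        ∑ sa ∈ (S ×ˢ A).filter (fun sa => B * sa.1 + sa.2 = n),
          ((W sa.1 : ℝ) * (lam sa.2 : ℝ)) ^ p.toReal := by
      intro n
      by_cases hne : ((S ×ˢ A).filter (fun sa => B * sa.1 + sa.2 = n)).Nonempty
      · obtain ⟨sa0, hsa0, heq⟩ :=
          Finset.exists_mem_eq_sup _ hne (fun sa : ℤ × ℤ => W sa.1 * lam sa.2)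
        have hval : wTensor B S A W lam n = W sa0.1 * lam sa0.2 := heq
        rw [hval, NNReal.coe_mul]
        exact Finset.single_le_sum
          (f := fun sa : ℤ × ℤ => ((W sa.1 : ℝ) * (lam sa.2 : ℝ)) ^ p.toReal)
          (fun _ _ => by positivity) hsa0
      · rw [Finset.not_nonempty_iff_eq_empty] at hne
        have hval : wTensor B S A W lam n = 0 := by
          unfold wTensor
          rw [hne, Finset.sup_empty]
          rfl
        rw [hval, hne, Finset.sum_empty, NNReal.coe_zero, Real.zero_rpow hq.ne']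
    calc ∑ n ∈ sTensor B S A, ((wTensor B S A W lam n : ℝ≥0) : ℝ) ^ p.toReal
        ≤ ∑ n ∈ sTensor B S A, ∑ sa ∈ (S ×ˢ A).filter (fun sa => B * sa.1 + sa.2 = n),
          ((W sa.1 : ℝ) * (lam sa.2 : ℝ)) ^ p.toReal := Finset.sum_le_sum fun n _ => hpt n
      _ = ∑ sa ∈ S ×ˢ A, ((W sa.1 : ℝ) * (lam sa.2 : ℝ)) ^ p.toReal := by
          apply Finset.sum_fiberwise_of_maps_to
          intro sa hsa
          rw [Finset.mem_product] at hsa
          exact Finset.mem_image₂_of_mem hsa.1 hsa.2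
      _ = (∑ s ∈ S, (W s : ℝ) ^ p.toReal) * (∑ a ∈ A, (lam a : ℝ) ^ p.toReal) := by
          rw [Finset.sum_mul_sum, Finset.sum_product]
          apply Finset.sum_congr rfl
          intro s _
          apply Finset.sum_congr rfl
          intro a _
          rw [Real.mul_rpow (NNReal.coe_nonneg _) (NNReal.coe_nonneg _)]
      _ ≤ 1 * 1 := by
          apply mul_le_mul hS' hA'
          · exact Finset.sum_nonneg fun a _ => Real.rpow_nonneg (NNReal.coe_nonneg _) _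
          · exact zero_le_one
      _ = 1 := mul_one 1

/-- the sets of the tensor powers -/
def sPow (B : ℤ) (A : Finset ℤ) : ℕ → Finset ℤ
  | 0 => {0}
  | (k + 1) => sTensor B (sPow B A k) A

/-- the weights of the tensor powers -/
noncomputable def wPow (B : ℤ) (A : Finset ℤ) (lam : ℤ → ℝ≥0) : ℕ → ℤ → ℝ≥0
  | 0 => fun _ => 1
  | (k + 1) => wTensor B (sPow B A k) A (wPow B A lam k) lam

theorem normLe_wPow (B : ℤ) (A : Finset ℤ) (lam : ℤ → ℝ≥0) (p : ℝ≥0∞) (hp0 : p ≠ 0)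
    (hA : NormLe p A lam) (k : ℕ) : NormLe p (sPow B A k) (wPow B A lam k) := by
  induction k with
  | zero =>
    constructor
    · intro _ a _
      simp [wPow]
    · intro _
      simp [sPow, wPow]
  | succ k ih => exact normLe_wTensor B (sPow B A k) A (wPow B A lam k) lam p hp0 ih hA

theorem proj_mem_sPow (B : ℤ) (P : Finset (ℤ × ℤ)) (j : ℤ) (A : Finset ℤ)
    (hP : ∀ d ∈ P, d.1 - j * d.2 ∈ A) (k : ℕ) :
    ∀ q ∈ cfgPow B P k, q.1 - j * q.2 ∈ sPow B A k := by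
  induction k with
  | zero =>
    intro q hq
    simp only [cfgPow, Finset.mem_singleton] at hq
    rw [hq]
    simp [sPow]
  | succ k ih =>
    intro q hq
    simp only [cfgPow, Finset.mem_image₂] at hq
    obtain ⟨q0, hq0, d, hd, rfl⟩ := hq
    have e : (B * q0.1 + d.1) - j * (B * q0.2 + d.2) = B * (q0.1 - j * q0.2) + (d.1 - j * d.2) := by
      ring
    show (B * q0.1 + d.1) - j * (B * q0.2 + d.2) ∈ sTensor B (sPow B A k) A
    rw [e]
    exact Finset.mem_image₂_of_mem (ih q0 hq0) (hP d hd)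

theorem abs_sPow_le (B : ℤ) (hB : 2 ≤ B) (A : Finset ℤ) (c0 : ℤ)
    (hc : ∀ a ∈ A, |a| ≤ c0) (hc0 : 0 ≤ c0) (k : ℕ) :
    ∀ n ∈ sPow B A k, |n| ≤ c0 * (B ^ k - 1) := by
  induction k with
  | zero =>
    intro n hn
    simp only [sPow, Finset.mem_singleton] at hn
    rw [hn]; simp
  | succ k ih =>
    intro n hn
    simp only [sPow, sTensor, Finset.mem_image₂] at hn
    obtain ⟨s, hs, a, ha, rfl⟩ := hn
    have i1 := ih s hs
    have d1 := hc a ha
    have hBpos : (0 : ℤ) ≤ B := by linarith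
    have e : B * (c0 * (B ^ k - 1)) + c0 ≤ c0 * (B ^ (k + 1) - 1) := by
      have : c0 * 2 ≤ c0 * B := mul_le_mul_of_nonneg_left hB hc0
      rw [pow_succ]
      nlinarith
    calc |B * s + a| ≤ |B * s| + |a| := abs_add_le _ _
      _ = B * |s| + |a| := by rw [abs_mul, abs_of_nonneg hBpos]
      _ ≤ B * (c0 * (B ^ k - 1)) + c0 := by
          have := mul_le_mul_of_nonneg_left i1 hBpos
          linarith
      _ ≤ _ := e

theorem wprod_tensor_ge (B : ℤ) (P : Finset (ℤ × ℤ)) (A1 A2 A3 : Finset ℤ)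
    (hP : ∀ d ∈ P, d.1 - 1 * d.2 ∈ A1 ∧ d.1 - 2 * d.2 ∈ A2 ∧ d.1 - 3 * d.2 ∈ A3)
    (lam1 lam2 lam3 : ℤ → ℝ≥0) (k : ℕ) (q : ℤ × ℤ) (hq : q ∈ cfgPow B P k) (d : ℤ × ℤ)
    (hd : d ∈ P) :
    wprod (wPow B A1 lam1 k) (wPow B A2 lam2 k) (wPow B A3 lam3 k) q * wprod lam1 lam2 lam3 d
      ≤ wprod (wPow B A1 lam1 (k + 1)) (wPow B A2 lam2 (k + 1)) (wPow B A3 lam3 (k + 1))
        (B * q.1 + d.1, B * q.2 + d.2) := by
  obtain ⟨h1, h2, h3⟩ := hP d hd
  have m1 := proj_mem_sPow B P 1 A1 (fun d hd => (hP d hd).1) k q hq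
  have m2 := proj_mem_sPow B P 2 A2 (fun d hd => (hP d hd).2.1) k q hq
  have m3 := proj_mem_sPow B P 3 A3 (fun d hd => (hP d hd).2.2) k q hq
  have g1 := le_wTensor B (wPow B A1 lam1 k) lam1 m1 h1
  have g2 := le_wTensor B (wPow B A2 lam2 k) lam2 m2 h2
  have g3 := le_wTensor B (wPow B A3 lam3 k) lam3 m3 h3
  have e1 : (B * q.1 + d.1) - 1 * (B * q.2 + d.2) = B * (q.1 - 1 * q.2) + (d.1 - 1 * d.2) := by
    ring
  have e2 : (B * q.1 + d.1) - 2 * (B * q.2 + d.2) = B * (q.1 - 2 * q.2) + (d.1 - 2 * d.2) := by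
    ring
  have e3 : (B * q.1 + d.1) - 3 * (B * q.2 + d.2) = B * (q.1 - 3 * q.2) + (d.1 - 3 * d.2) := by
    ring
  unfold wprod
  simp only [wPow]
  rw [e1, e2, e3]
  have g1' : (wPow B A1 lam1 k (q.1 - 1 * q.2) : ℝ) * (lam1 (d.1 - 1 * d.2) : ℝ)
      ≤ (wTensor B (sPow B A1 k) A1 (wPow B A1 lam1 k) lam1
        (B * (q.1 - 1 * q.2) + (d.1 - 1 * d.2)) : ℝ) := by exact_mod_cast g1
  have g2' : (wPow B A2 lam2 k (q.1 - 2 * q.2) : ℝ) * (lam2 (d.1 - 2 * d.2) : ℝ)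
      ≤ (wTensor B (sPow B A2 k) A2 (wPow B A2 lam2 k) lam2
        (B * (q.1 - 2 * q.2) + (d.1 - 2 * d.2)) : ℝ) := by exact_mod_cast g2
  have g3' : (wPow B A3 lam3 k (q.1 - 3 * q.2) : ℝ) * (lam3 (d.1 - 3 * d.2) : ℝ)
      ≤ (wTensor B (sPow B A3 k) A3 (wPow B A3 lam3 k) lam3
        (B * (q.1 - 3 * q.2) + (d.1 - 3 * d.2)) : ℝ) := by exact_mod_cast g3
  calc (wPow B A1 lam1 k (q.1 - 1 * q.2) : ℝ) * (wPow B A2 lam2 k (q.1 - 2 * q.2) : ℝ)
        * (wPow B A3 lam3 k (q.1 - 3 * q.2) : ℝ)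
        * ((lam1 (d.1 - 1 * d.2) : ℝ) * (lam2 (d.1 - 2 * d.2) : ℝ) * (lam3 (d.1 - 3 * d.2) : ℝ))
      = ((wPow B A1 lam1 k (q.1 - 1 * q.2) : ℝ) * (lam1 (d.1 - 1 * d.2) : ℝ))
        * ((wPow B A2 lam2 k (q.1 - 2 * q.2) : ℝ) * (lam2 (d.1 - 2 * d.2) : ℝ))
        * ((wPow B A3 lam3 k (q.1 - 3 * q.2) : ℝ) * (lam3 (d.1 - 3 * d.2) : ℝ)) := by ring
    _ ≤ _ := by
        apply mul_le_mul (mul_le_mul g1' g2' (by positivity) (NNReal.coe_nonneg _)) g3'
          (by positivity) (by positivity)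

end Vale.Agent.Lib.P141
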