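import Mathlib
import Vale.Agent.Lib.P141.WTensor
import Vale.Agent.Lib.P141.Main

namespace Vale.Agent.Lib.P141

open MeasureTheory Filter Topology
open scoped ENNReal NNReal

theorem digit_unique (B : ℤ) (hB : B ≠ 0) {s s' a a' : ℤ} (ha : a ≡ a' [ZMOD B] → a = a')
    (h : B * s + a = B * s' + a') : s = s' ∧ a = a' := by
  have hmod : a ≡ a' [ZMOD B] := by
    rw [Int.modEq_iff_dvd]
    exact ⟨s - s', by linarith⟩
  have haa := ha hmod
  rw [haa] at h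
  have : B * s = B * s' := by linarith
  exact ⟨mul_left_cancel₀ hB this, haa⟩

theorem valSum_tensor (B : ℤ) (hB : B ≠ 0) (Q P : Finset (ℤ × ℤ)) (G g g' : ℤ × ℤ → ℝ)
    (hG : ∀ q, 0 ≤ G q) (hg : ∀ d, 0 ≤ g d) (hg' : ∀ e, 0 ≤ g' e)
    (hmul : ∀ q ∈ Q, ∀ d ∈ P, G q * g d ≤ g' (B * q.1 + d.1, B * q.2 + d.2))
    (hinjx : ∀ d ∈ P, ∀ d' ∈ P, d.1 ≡ d'.1 [ZMOD B] → d.1 = d'.1)
    (hinjt : ∀ d ∈ P, ∀ d' ∈ P, d.2 ≡ d'.2 [ZMOD B] → d.2 = d'.2)
    (ρ : ℝ) (hρ : 0 ≤ ρ) :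
    valSum Q G ρ * valSum P g ρ
      ≤ valSum (Finset.image₂ (fun q d => (B * q.1 + d.1, B * q.2 + d.2)) Q P) g' ρ := by
  classical
  set Q' := Finset.image₂ (fun (q d : ℤ × ℤ) => (B * q.1 + d.1, B * q.2 + d.2)) Q P with hQ'
  have key1 : ∀ x x' : ℤ, wcount Q G x * wcount P g x' ≤ wcount Q' g' (B * x + x') := by
    intro x x'
    unfold wcount
    rw [Finset.sum_mul_sum, ← Finset.sum_product']
    calc ∑ qd ∈ (Q.filter (fun q => q.1 = x)) ×ˢ (P.filter (fun d => d.1 = x')),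
          G qd.1 * g qd.2
        ≤ ∑ qd ∈ (Q.filter (fun q => q.1 = x)) ×ˢ (P.filter (fun d => d.1 = x')),
          g' (B * qd.1.1 + qd.2.1, B * qd.1.2 + qd.2.2) := by
          apply Finset.sum_le_sum
          intro qd hqd
          rw [Finset.mem_product, Finset.mem_filter, Finset.mem_filter] at hqd
          exact hmul qd.1 hqd.1.1 qd.2 hqd.2.1
      _ = ∑ e ∈ ((Q.filter (fun q => q.1 = x)) ×ˢ (P.filter (fun d => d.1 = x'))).image
            (fun qd : (ℤ × ℤ) × (ℤ × ℤ) => (B * qd.1.1 + qd.2.1, B * qd.1.2 + qd.2.2)), g' e := by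
          rw [Finset.sum_image]
          intro qd hqd qd' hqd' heq
          rw [Finset.mem_coe, Finset.mem_product, Finset.mem_filter, Finset.mem_filter]
            at hqd hqd'
          simp only [Prod.mk.injEq] at heq
          obtain ⟨-, h2⟩ := heq
          obtain ⟨e1, e2⟩ := digit_unique B hB (hinjt qd.2 hqd.2.1 qd'.2 hqd'.2.1) h2
          have f1 : qd.1.1 = qd'.1.1 := by rw [hqd.1.2, hqd'.1.2]
          have f2 : qd.2.1 = qd'.2.1 := by rw [hqd.2.2, hqd'.2.2]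
          exact Prod.ext (Prod.ext f1 e1) (Prod.ext f2 e2)
      _ ≤ ∑ e ∈ Q'.filter (fun e => e.1 = B * x + x'), g' e := by
          apply Finset.sum_le_sum_of_subset_of_nonneg
          · intro e he
            rw [Finset.mem_image] at he
            obtain ⟨qd, hqd, rfl⟩ := he
            rw [Finset.mem_product, Finset.mem_filter, Finset.mem_filter] at hqd
            rw [Finset.mem_filter]
            refine ⟨Finset.mem_image₂_of_mem hqd.1.1 hqd.2.1, ?_⟩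
            show B * qd.1.1 + qd.2.1 = B * x + x'
            rw [hqd.1.2, hqd.2.2]
          · intro e _ _
            exact hg' e
  unfold valSum
  rw [Finset.sum_mul_sum, ← Finset.sum_product']
  calc ∑ xx ∈ (Q.image Prod.fst) ×ˢ (P.image Prod.fst),
        (wcount Q G xx.1) ^ ρ * (wcount P g xx.2) ^ ρ
      ≤ ∑ xx ∈ (Q.image Prod.fst) ×ˢ (P.image Prod.fst),
        (wcount Q' g' (B * xx.1 + xx.2)) ^ ρ := by
        apply Finset.sum_le_sum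
        intro xx _
        rw [← Real.mul_rpow (wcount_nonneg Q G hG _) (wcount_nonneg P g hg _)]
        exact Real.rpow_le_rpow
          (mul_nonneg (wcount_nonneg Q G hG _) (wcount_nonneg P g hg _)) (key1 xx.1 xx.2) hρ
    _ = ∑ y ∈ ((Q.image Prod.fst) ×ˢ (P.image Prod.fst)).image
          (fun xx : ℤ × ℤ => B * xx.1 + xx.2), (wcount Q' g' y) ^ ρ := by
        rw [Finset.sum_image]
        intro xx hxx xx' hxx' heq
        rw [Finset.mem_coe, Finset.mem_product, Finset.mem_image, Finset.mem_image] at hxx hxx'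
        obtain ⟨-, d, hd, hdx⟩ := hxx
        obtain ⟨-, d', hd', hdx'⟩ := hxx'
        have hh : xx.2 ≡ xx'.2 [ZMOD B] → xx.2 = xx'.2 := by
          rw [← hdx, ← hdx']
          exact hinjx d hd d' hd'
        obtain ⟨e1, e2⟩ := digit_unique B hB hh heq
        exact Prod.ext e1 e2
    _ ≤ ∑ y ∈ Q'.image Prod.fst, (wcount Q' g' y) ^ ρ := by
        apply Finset.sum_le_sum_of_subset_of_nonneg
        · intro y hy
          rw [Finset.mem_image] at hy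
          obtain ⟨xx, hxx, rfl⟩ := hy
          rw [Finset.mem_product, Finset.mem_image, Finset.mem_image] at hxx
          obtain ⟨⟨q, hq, hqx⟩, d, hd, hdx⟩ := hxx
          rw [Finset.mem_image]
          refine ⟨(B * q.1 + d.1, B * q.2 + d.2), Finset.mem_image₂_of_mem hq hd, ?_⟩
          show B * q.1 + d.1 = B * xx.1 + xx.2
          rw [hqx, hdx]
        · intro y _ _
          exact Real.rpow_nonneg (wcount_nonneg Q' g' hg' y) _

theorem valSum_pow (B : ℤ) (hB : B ≠ 0) (P : Finset (ℤ × ℤ)) (A1 A2 A3 : Finset ℤ)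
    (hP : ∀ d ∈ P, d.1 - 1 * d.2 ∈ A1 ∧ d.1 - 2 * d.2 ∈ A2 ∧ d.1 - 3 * d.2 ∈ A3)
    (lam1 lam2 lam3 : ℤ → ℝ≥0)
    (hinjx : ∀ d ∈ P, ∀ d' ∈ P, d.1 ≡ d'.1 [ZMOD B] → d.1 = d'.1)
    (hinjt : ∀ d ∈ P, ∀ d' ∈ P, d.2 ≡ d'.2 [ZMOD B] → d.2 = d'.2)
    (ρ : ℝ) (hρ : 0 ≤ ρ) (k : ℕ) :
    (valSum P (wprod lam1 lam2 lam3) ρ) ^ k
      ≤ valSum (cfgPow B P k)
        (wprod (wPow B A1 lam1 k) (wPow B A2 lam2 k) (wPow B A3 lam3 k)) ρ := by
  induction k with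
  | zero =>
    have h1 : (cfgPow B P 0).image Prod.fst = {0} := by simp [cfgPow]
    have h2 : (cfgPow B P 0).filter (fun d => d.1 = 0) = {(0, 0)} := by simp [cfgPow]
    unfold valSum
    rw [h1, Finset.sum_singleton]
    unfold wcount
    rw [h2, Finset.sum_singleton]
    simp [wprod, wPow]
  | succ k ih =>
    rw [pow_succ]
    have hval : 0 ≤ valSum P (wprod lam1 lam2 lam3) ρ :=
      Finset.sum_nonneg fun x _ =>
        Real.rpow_nonneg (wcount_nonneg P _ (wprod_nonneg lam1 lam2 lam3) x) _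
    refine (mul_le_mul_of_nonneg_right ih hval).trans ?_
    exact valSum_tensor B hB (cfgPow B P k) P _ _ _ (wprod_nonneg _ _ _) (wprod_nonneg _ _ _)
      (wprod_nonneg _ _ _) (wprod_tensor_ge B P A1 A2 A3 hP lam1 lam2 lam3 k) hinjx hinjt ρ hρ

/-- The weighted criterion: weights `lamᵢ` normalised in `ℓ^{pᵢ}` on sets `Aᵢ` containing the
second, third and fourth terms of the progressions of `P`; first terms and common differences
determined by their residues modulo `B`. If the discrete trilinear sum exceeds `B^r`, the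
trilinear Hilbert transform is not bounded at `(p₁, p₂, p₃, r)`. -/
theorem unbounded_of_weights (B : ℤ) (hB : 2 ≤ B) (P : Finset (ℤ × ℤ))
    (hinjx : ∀ d ∈ P, ∀ d' ∈ P, d.1 ≡ d'.1 [ZMOD B] → d.1 = d'.1)
    (hinjt : ∀ d ∈ P, ∀ d' ∈ P, d.2 ≡ d'.2 [ZMOD B] → d.2 = d'.2)
    (A1 A2 A3 : Finset ℤ)
    (hP : ∀ d ∈ P, d.1 - 1 * d.2 ∈ A1 ∧ d.1 - 2 * d.2 ∈ A2 ∧ d.1 - 3 * d.2 ∈ A3)
    (lam1 lam2 lam3 : ℤ → ℝ≥0) (p₁ p₂ p₃ r : ℝ≥0∞) (hr0 : r ≠ 0) (hrtop : r ≠ ⊤)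
    (hp1 : p₁ ≠ 0) (hp2 : p₂ ≠ 0) (hp3 : p₃ ≠ 0)
    (hN1 : NormLe p₁ A1 lam1) (hN2 : NormLe p₂ A2 lam2) (hN3 : NormLe p₃ A3 lam3)
    (hcrit : (B : ℝ) ^ r.toReal < valSum P (wprod lam1 lam2 lam3) r.toReal) :
    ¬ BoundedAt p₁ p₂ p₃ r := by
  rintro ⟨C, hC⟩
  have hρ : 0 < r.toReal := ENNReal.toReal_pos hr0 hrtop
  set c0 : ℤ := 1 + ∑ a ∈ A1, |a| + ∑ a ∈ A2, |a| + ∑ a ∈ A3, |a| with hc0
  have hs1 : 0 ≤ ∑ a ∈ A1, |a| := Finset.sum_nonneg fun a _ => abs_nonneg a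
  have hs2 : 0 ≤ ∑ a ∈ A2, |a| := Finset.sum_nonneg fun a _ => abs_nonneg a
  have hs3 : 0 ≤ ∑ a ∈ A3, |a| := Finset.sum_nonneg fun a _ => abs_nonneg a
  have hc0_1 : 1 ≤ c0 := by linarith
  have hA1 : ∀ a ∈ A1, |a| ≤ c0 := by
    intro a ha
    have := Finset.single_le_sum (f := fun a : ℤ => |a|) (fun a _ => abs_nonneg a) ha
    linarith
  have hA2 : ∀ a ∈ A2, |a| ≤ c0 := by
    intro a ha
    have := Finset.single_le_sum (f := fun a : ℤ => |a|) (fun a _ => abs_nonneg a) ha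
    linarith
  have hBR : (1 : ℝ) ≤ (B : ℝ) := by
    have : (1 : ℤ) ≤ B := by linarith
    exact_mod_cast this
  have hc0R : (1 : ℝ) ≤ (c0 : ℝ) := by exact_mod_cast hc0_1
  have hBne : B ≠ 0 := by linarith
  refine no_geometric_bound (valSum P (wprod lam1 lam2 lam3) r.toReal) ((B : ℝ) ^ r.toReal)
    (8 * (56 * (c0 : ℝ) * (C : ℝ)) ^ r.toReal) (by positivity) hcrit (fun k => ?_)
  set N : ℤ := c0 * B ^ k with hN
  set c : ℤ := 2 * N + 2 with hc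
  have hBk : (1 : ℤ) ≤ B ^ k := one_le_pow₀ (by linarith)
  have hsepZ : ∀ a ∈ sPow B A1 k, ∀ b ∈ sPow B A2 k,
      (2 : ℤ) ≤ a - b + c ∧ a - b + c + 1 ≤ 4 * N + 3 := by
    intro a ha b hb
    have h1 := abs_sPow_le B hB A1 c0 hA1 (by linarith) k a ha
    have h2 := abs_sPow_le B hB A2 c0 hA2 (by linarith) k b hb
    have hle : c0 * (B ^ k - 1) ≤ N := by
      rw [hN]; nlinarith
    rw [abs_le] at h1 h2
    constructor <;> linarith [h1.1, h1.2, h2.1, h2.2]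
  have hsep : ∀ a ∈ sPow B A1 k, ∀ b ∈ sPow B A2 k,
      (2 : ℝ) ≤ (a : ℝ) - b + c ∧ (a : ℝ) - b + c + 1 ≤ ((4 * N + 3 : ℤ) : ℝ) := by
    intro a ha b hb
    obtain ⟨h1, h2⟩ := hsepZ a ha b hb
    constructor
    · exact_mod_cast h1
    · exact_mod_cast h2
  have hNpos : (1 : ℝ) ≤ (N : ℝ) := by
    have : (1 : ℤ) ≤ N := by rw [hN]; nlinarith
    exact_mod_cast this
  have hLpos : (0 : ℝ) < ((4 * N + 3 : ℤ) : ℝ) := by
    push_cast; linarith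
  have hQ : ∀ d ∈ cfgPow B P k, d.1 - 1 * d.2 ∈ sPow B A1 k ∧ d.1 - 2 * d.2 ∈ sPow B A2 k
      ∧ d.1 - 3 * d.2 ∈ sPow B A3 k := by
    intro d hd
    exact ⟨proj_mem_sPow B P 1 A1 (fun d hd => (hP d hd).1) k d hd,
      proj_mem_sPow B P 2 A2 (fun d hd => (hP d hd).2.1) k d hd,
      proj_mem_sPow B P 3 A3 (fun d hd => (hP d hd).2.2) k d hd⟩
  have hdisc := discrete_ineq (w1 := wPow B A1 lam1 k) (w2 := wPow B A2 lam2 k)
    (w3 := wPow B A3 lam3 k) hsep (cfgPow B P k) hQ hLpos p₁ p₂ p₃ r hr0 hrtop hp1 hp2 hp3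
    (normLe_wPow B A1 lam1 p₁ hp1 hN1 k) (normLe_wPow B A2 lam2 p₂ hp2 hN2 k)
    (normLe_wPow B A3 lam3 p₃ hp3 hN3 k) C hC
  have hpow := valSum_pow B hBne P A1 A2 A3 hP lam1 lam2 lam3 hinjx hinjt r.toReal hρ.le k
  refine hpow.trans (hdisc.trans ?_)
  have hNR : ((4 * N + 3 : ℤ) : ℝ) ≤ 7 * (c0 : ℝ) * (B : ℝ) ^ k := by
    rw [hN] at hNpos ⊢
    push_cast at hNpos ⊢
    linarith
  have hBk0 : (0 : ℝ) ≤ (B : ℝ) ^ k := by positivity
  have hC0 : (0 : ℝ) ≤ (C : ℝ) := NNReal.coe_nonneg C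
  have e1 : 8 * ((4 * N + 3 : ℤ) : ℝ) * (C : ℝ) ≤ 56 * (c0 : ℝ) * (C : ℝ) * (B : ℝ) ^ k := by
    nlinarith [mul_le_mul_of_nonneg_right hNR hC0]
  have e2 : (8 * ((4 * N + 3 : ℤ) : ℝ) * (C : ℝ)) ^ r.toReal
      ≤ (56 * (c0 : ℝ) * (C : ℝ) * (B : ℝ) ^ k) ^ r.toReal :=
    Real.rpow_le_rpow (by positivity) e1 hρ.le
  have e3 : (56 * (c0 : ℝ) * (C : ℝ) * (B : ℝ) ^ k) ^ r.toReal
      = (56 * (c0 : ℝ) * (C : ℝ)) ^ r.toReal * ((B : ℝ) ^ r.toReal) ^ k := by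
    rw [Real.mul_rpow (by positivity) hBk0, Real.rpow_pow_comm (by linarith)]
  calc 8 * (8 * ((4 * N + 3 : ℤ) : ℝ) * (C : ℝ)) ^ r.toReal
      ≤ 8 * ((56 * (c0 : ℝ) * (C : ℝ)) ^ r.toReal * ((B : ℝ) ^ r.toReal) ^ k) := by
        rw [← e3]
        linarith
    _ = 8 * (56 * (c0 : ℝ) * (C : ℝ)) ^ r.toReal * ((B : ℝ) ^ r.toReal) ^ k := by ring

end Vale.Agent.Lib.P141
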