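import Mathlib
import Vale.Agent.Lib.P141.WMain
import Vale.Agent.Lib.P141.Corner
import Vale.Agent.Lib.P141.WDefs

namespace Vale.Agent.Lib.P141

open MeasureTheory Filter Topology
open scoped ENNReal NNReal

theorem log_jensen {ι : Type*} (s : Finset ι) (w z : ι → ℝ) (hw : ∀ i ∈ s, 0 ≤ w i)
    (hw1 : ∑ i ∈ s, w i = 1) (hz : ∀ i ∈ s, 0 < z i) :
    ∑ i ∈ s, w i * Real.log (z i) ≤ Real.log (∑ i ∈ s, w i * z i) := by
  have := strictConcaveOn_log_Ioi.concaveOn.le_map_sum hw hw1 (fun i hi => hz i hi)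
  simpa [smul_eq_mul] using this

theorem fiberWeight_pos (P : Finset (ℤ × ℤ)) (k : ℤ × ℤ → ℕ) (hk : ∀ d ∈ P, 0 < k d) (j : ℤ)
    (d : ℤ × ℤ) (hd : d ∈ P) : 0 < fiberWeight P k j (d.1 - j * d.2) := by
  have hmem : d ∈ P.filter (fun e => e.1 - j * e.2 = d.1 - j * d.2) :=
    Finset.mem_filter.mpr ⟨hd, rfl⟩
  have := Finset.single_le_sum (f := k) (fun e _ => Nat.zero_le (k e)) hmem
  exact lt_of_lt_of_le (hk d hd) this

theorem sum_fiberWeight (P : Finset (ℤ × ℤ)) (k : ℤ × ℤ → ℕ) (j : ℤ) :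
    ∑ a ∈ P.image (fun d => d.1 - j * d.2), fiberWeight P k j a = ∑ d ∈ P, k d :=
  Finset.sum_fiberwise_of_maps_to (fun _ hd => Finset.mem_image_of_mem _ hd) k

/-- the weight `(m / N)^e`, `m` the fibre weight and `N` the total weight -/
noncomputable def lamE (P : Finset (ℤ × ℤ)) (k : ℤ × ℤ → ℕ) (j : ℤ) (e : ℝ) (a : ℤ) : ℝ≥0 :=
  ⟨((fiberWeight P k j a : ℝ) / ((∑ d ∈ P, k d : ℕ) : ℝ)) ^ e,
    Real.rpow_nonneg (div_nonneg (Nat.cast_nonneg _) (Nat.cast_nonneg _)) _⟩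

theorem total_pos (P : Finset (ℤ × ℤ)) (k : ℤ × ℤ → ℕ) (hP : P.Nonempty)
    (hk : ∀ d ∈ P, 0 < k d) : (0 : ℝ) < ((∑ d ∈ P, k d : ℕ) : ℝ) := by
  have : 0 < ∑ d ∈ P, k d := Finset.sum_pos hk hP
  exact_mod_cast this

theorem normLe_lamE (P : Finset (ℤ × ℤ)) (k : ℤ × ℤ → ℕ) (hP : P.Nonempty)
    (hk : ∀ d ∈ P, 0 < k d) (j : ℤ) (p : ℝ≥0∞) (hp : p ≠ 0) :
    NormLe p (P.image (fun d => d.1 - j * d.2)) (lamE P k j (p⁻¹).toReal) := by
  have hNpos := total_pos P k hP hk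
  constructor
  · intro hp' a _
    rw [← NNReal.coe_le_coe]
    show ((fiberWeight P k j a : ℝ) / ((∑ d ∈ P, k d : ℕ) : ℝ)) ^ (p⁻¹).toReal ≤ ((1 : ℝ≥0) : ℝ)
    rw [hp']
    simp
  · intro hp'
    have hq : 0 < p.toReal := ENNReal.toReal_pos hp hp'
    have hpow : ∀ a ∈ P.image (fun d => d.1 - j * d.2),
        ((lamE P k j (p⁻¹).toReal a : ℝ≥0) : ℝ) ^ p.toReal
          = (fiberWeight P k j a : ℝ) / ((∑ d ∈ P, k d : ℕ) : ℝ) := by
      intro a _
      show (((fiberWeight P k j a : ℝ) / ((∑ d ∈ P, k d : ℕ) : ℝ)) ^ (p⁻¹).toReal) ^ p.toReal = _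
      rw [ENNReal.toReal_inv,
        Real.rpow_inv_rpow (div_nonneg (Nat.cast_nonneg _) (Nat.cast_nonneg _)) hq.ne']
    rw [Finset.sum_congr rfl hpow, ← Finset.sum_div, ← Nat.cast_sum, sum_fiberWeight,
      div_self hNpos.ne']

/-- The entropy form of the weighted criterion. -/
theorem unbounded_of_entropy (B : ℤ) (hB : 2 ≤ B) (P : Finset (ℤ × ℤ)) (k : ℤ × ℤ → ℕ)
    (hk : ∀ d ∈ P, 0 < k d)
    (hinjx : ∀ d ∈ P, ∀ d' ∈ P, d.1 ≡ d'.1 [ZMOD B] → d.1 = d'.1)
    (hinjt : ∀ d ∈ P, ∀ d' ∈ P, d.2 ≡ d'.2 [ZMOD B] → d.2 = d'.2)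
    (p₁ p₂ p₃ r : ℝ≥0∞) (hH : IsHolderTuple p₁ p₂ p₃ r)
    (hent : ((∑ d ∈ P, k d : ℕ) : ℝ) * Real.log (B : ℝ) < ∑ d ∈ P, (k d : ℝ) *
      ((p₁⁻¹).toReal * Real.log
          ((fiberWeight P k 1 (d.1 - 1 * d.2) : ℝ) / (fiberWeight P k 0 d.1 : ℝ))
        + (p₂⁻¹).toReal * Real.log
          ((fiberWeight P k 2 (d.1 - 2 * d.2) : ℝ) / (fiberWeight P k 0 d.1 : ℝ))
        + (p₃⁻¹).toReal * Real.log
          ((fiberWeight P k 3 (d.1 - 3 * d.2) : ℝ) / (fiberWeight P k 0 d.1 : ℝ))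
        + Real.log ((fiberWeight P k 0 d.1 : ℝ) / (k d : ℝ)))) :
    ¬ BoundedAt p₁ p₂ p₃ r := by
  have hr0 : r ≠ 0 := hH.2.2.2.1.ne'
  have hrtop : r ≠ ⊤ := hH.2.2.2.2.1.ne
  have hp1 : p₁ ≠ 0 := (zero_lt_one.trans hH.1).ne'
  have hp2 : p₂ ≠ 0 := (zero_lt_one.trans hH.2.1).ne'
  have hp3 : p₃ ≠ 0 := (zero_lt_one.trans hH.2.2.1).ne'
  have hρ : 0 < r.toReal := ENNReal.toReal_pos hr0 hrtop
  by_cases hPe : P = ∅
  · subst hPe
    simp at hent
  have hPne : P.Nonempty := Finset.nonempty_iff_ne_empty.mpr hPe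
  set a1 : ℝ := (p₁⁻¹).toReal with ha1
  set a2 : ℝ := (p₂⁻¹).toReal with ha2
  set a3 : ℝ := (p₃⁻¹).toReal with ha3
  have hρa : r.toReal * (a1 + a2 + a3) = 1 := by
    have := holder_sum hH
    rw [ha1, ha2, ha3, ENNReal.toReal_inv, ENNReal.toReal_inv, ENNReal.toReal_inv, this]
    exact mul_inv_cancel₀ hρ.ne'
  apply unbounded_of_weights B hB P hinjx hinjt (P.image (fun d => d.1 - 1 * d.2))
    (P.image (fun d => d.1 - 2 * d.2)) (P.image (fun d => d.1 - 3 * d.2))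
    (fun d hd => ⟨Finset.mem_image_of_mem _ hd, Finset.mem_image_of_mem _ hd,
      Finset.mem_image_of_mem _ hd⟩)
    (lamE P k 1 a1) (lamE P k 2 a2) (lamE P k 3 a3) p₁ p₂ p₃ r hr0 hrtop hp1 hp2 hp3
    (normLe_lamE P k hPne hk 1 p₁ hp1) (normLe_lamE P k hPne hk 2 p₂ hp2)
    (normLe_lamE P k hPne hk 3 p₃ hp3)
  -- notation for the real quantities
  set Nn : ℝ := ((∑ d ∈ P, k d : ℕ) : ℝ) with hNn
  have hNpos : 0 < Nn := total_pos P k hPne hk
  set ρ : ℝ := r.toReal with hρdef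
  set n : ℤ → ℝ := fun x => (fiberWeight P k 0 x : ℝ) with hn
  set m1 : ℤ × ℤ → ℝ := fun d => (fiberWeight P k 1 (d.1 - 1 * d.2) : ℝ) with hm1
  set m2 : ℤ × ℤ → ℝ := fun d => (fiberWeight P k 2 (d.1 - 2 * d.2) : ℝ) with hm2
  set m3 : ℤ × ℤ → ℝ := fun d => (fiberWeight P k 3 (d.1 - 3 * d.2) : ℝ) with hm3
  set g : ℤ × ℤ → ℝ := wprod (lamE P k 1 a1) (lamE P k 2 a2) (lamE P k 3 a3) with hg
  have hK : ∀ d ∈ P, (0 : ℝ) < (k d : ℝ) := fun d hd => by exact_mod_cast hk d hd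
  have hn_eq : ∀ x, n x = ∑ d ∈ P.filter (fun d => d.1 = x), (k d : ℝ) := by
    intro x
    have hf : P.filter (fun e => e.1 - 0 * e.2 = x) = P.filter (fun e => e.1 = x) :=
      Finset.filter_congr (fun e _ => by simp)
    show ((fiberWeight P k 0 x : ℕ) : ℝ) = _
    unfold fiberWeight
    rw [hf, Nat.cast_sum]
  have hn_pos : ∀ d ∈ P, 0 < n d.1 := by
    intro d hd
    have := fiberWeight_pos P k hk 0 d hd
    have e : d.1 - 0 * d.2 = d.1 := by ring
    rw [e] at this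
    show (0 : ℝ) < (fiberWeight P k 0 d.1 : ℝ)
    exact_mod_cast this
  have hm1_pos : ∀ d ∈ P, 0 < m1 d := fun d hd => by
    show (0 : ℝ) < (fiberWeight P k 1 (d.1 - 1 * d.2) : ℝ)
    exact_mod_cast fiberWeight_pos P k hk 1 d hd
  have hm2_pos : ∀ d ∈ P, 0 < m2 d := fun d hd => by
    show (0 : ℝ) < (fiberWeight P k 2 (d.1 - 2 * d.2) : ℝ)
    exact_mod_cast fiberWeight_pos P k hk 2 d hd
  have hm3_pos : ∀ d ∈ P, 0 < m3 d := fun d hd => by
    show (0 : ℝ) < (fiberWeight P k 3 (d.1 - 3 * d.2) : ℝ)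
    exact_mod_cast fiberWeight_pos P k hk 3 d hd
  have hg_eq : ∀ d, g d = (m1 d / Nn) ^ a1 * (m2 d / Nn) ^ a2 * (m3 d / Nn) ^ a3 :=
    fun d => rfl
  have hg_pos : ∀ d ∈ P, 0 < g d := by
    intro d hd
    rw [hg_eq]
    have e1 := div_pos (hm1_pos d hd) hNpos
    have e2 := div_pos (hm2_pos d hd) hNpos
    have e3 := div_pos (hm3_pos d hd) hNpos
    positivity
  have hlogg : ∀ d ∈ P, Real.log (g d) = a1 * (Real.log (m1 d) - Real.log Nn)
      + a2 * (Real.log (m2 d) - Real.log Nn) + a3 * (Real.log (m3 d) - Real.log Nn) := by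
    intro d hd
    have e1 := div_pos (hm1_pos d hd) hNpos
    have e2 := div_pos (hm2_pos d hd) hNpos
    have e3 := div_pos (hm3_pos d hd) hNpos
    rw [hg_eq, Real.log_mul (by positivity) (by positivity),
      Real.log_mul (by positivity) (by positivity), Real.log_rpow e1, Real.log_rpow e2,
      Real.log_rpow e3, Real.log_div (hm1_pos d hd).ne' hNpos.ne',
      Real.log_div (hm2_pos d hd).ne' hNpos.ne', Real.log_div (hm3_pos d hd).ne' hNpos.ne']
  -- the fibre sums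
  have hF_pos : ∀ x ∈ P.image Prod.fst, 0 < wcount P g x := by
    intro x hx
    rw [Finset.mem_image] at hx
    obtain ⟨d, hd, hdx⟩ := hx
    apply Finset.sum_pos
    · intro e he
      rw [Finset.mem_filter] at he
      exact hg_pos e he.1
    · exact ⟨d, Finset.mem_filter.mpr ⟨hd, hdx⟩⟩
  have hV_pos : 0 < valSum P g ρ := by
    apply Finset.sum_pos
    · intro x hx
      exact Real.rpow_pos_of_pos (hF_pos x hx) _
    · exact hPne.image _
  set T : ℤ × ℤ → ℝ := fun d => ρ * (k d : ℝ) * (Real.log (g d) + Real.log (n d.1)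
      - Real.log (k d : ℝ)) + (k d : ℝ) * (Real.log Nn - Real.log (n d.1)) with hT
  -- the sum of `T` is `ρ` times the entropy expression
  have hT_sum : ∑ d ∈ P, T d = ρ * ∑ d ∈ P, (k d : ℝ) *
      (a1 * Real.log (m1 d / n d.1) + a2 * Real.log (m2 d / n d.1)
        + a3 * Real.log (m3 d / n d.1) + Real.log (n d.1 / (k d : ℝ))) := by
    rw [Finset.mul_sum]
    apply Finset.sum_congr rfl
    intro d hd
    rw [hT]
    simp only
    rw [hlogg d hd, Real.log_div (hm1_pos d hd).ne' (hn_pos d hd).ne',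
      Real.log_div (hm2_pos d hd).ne' (hn_pos d hd).ne',
      Real.log_div (hm3_pos d hd).ne' (hn_pos d hd).ne',
      Real.log_div (hn_pos d hd).ne' (hK d hd).ne']
    linear_combination ((k d : ℝ) * (Real.log (n d.1) - Real.log Nn)) * hρa
  -- Jensen on each fibre
  have hA : ∀ x ∈ P.image Prod.fst, ∑ d ∈ P.filter (fun d => d.1 = x), T d
      ≤ n x * (ρ * Real.log (wcount P g x) + Real.log Nn - Real.log (n x)) := by
    intro x hx
    have hnx : 0 < n x := by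
      rw [Finset.mem_image] at hx
      obtain ⟨d, hd, hdx⟩ := hx
      rw [← hdx]
      exact hn_pos d hd
    have hfib : ∀ d ∈ P.filter (fun d => d.1 = x), d ∈ P ∧ d.1 = x := fun d hd =>
      Finset.mem_filter.mp hd
    have hJ := log_jensen (P.filter (fun d => d.1 = x)) (fun d => (k d : ℝ) / n x)
      (fun d => g d * n x / (k d : ℝ))
      (fun d hd => div_nonneg (Nat.cast_nonneg _) hnx.le)
      (by rw [← Finset.sum_div, ← hn_eq x, div_self hnx.ne'])
      (fun d hd => div_pos (mul_pos (hg_pos d (hfib d hd).1) hnx) (hK d (hfib d hd).1))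
    have hsumg : ∑ d ∈ P.filter (fun d => d.1 = x), (k d : ℝ) / n x * (g d * n x / (k d : ℝ))
        = wcount P g x := by
      unfold wcount
      apply Finset.sum_congr rfl
      intro d hd
      have := (hK d (hfib d hd).1).ne'
      field_simp
    rw [hsumg] at hJ
    have hterm : ∀ d ∈ P.filter (fun d => d.1 = x), T d
        = (n x * ρ) * ((k d : ℝ) / n x * Real.log (g d * n x / (k d : ℝ)))
          + (k d : ℝ) * (Real.log Nn - Real.log (n x)) := by
      intro d hd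
      obtain ⟨hdP, hdx⟩ := hfib d hd
      rw [hT]
      simp only
      rw [hdx, Real.log_div (mul_pos (hg_pos d hdP) hnx).ne' (hK d hdP).ne',
        Real.log_mul (hg_pos d hdP).ne' hnx.ne']
      field_simp
    rw [Finset.sum_congr rfl hterm, Finset.sum_add_distrib, ← Finset.mul_sum, ← Finset.sum_mul,
      ← hn_eq x]
    have := mul_le_mul_of_nonneg_left hJ (mul_nonneg hnx.le hρ.le)
    linarith
  -- Jensen over the first terms
  have hsumn : ∑ x ∈ P.image Prod.fst, n x = Nn := by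
    rw [hNn, Nat.cast_sum]
    rw [Finset.sum_congr rfl (fun x _ => hn_eq x)]
    exact Finset.sum_fiberwise_of_maps_to (fun d hd => Finset.mem_image_of_mem _ hd) _
  have hnX : ∀ x ∈ P.image Prod.fst, 0 < n x := by
    intro x hx
    rw [Finset.mem_image] at hx
    obtain ⟨d, hd, hdx⟩ := hx
    rw [← hdx]
    exact hn_pos d hd
  have hB' : ∑ x ∈ P.image Prod.fst,
      n x * (ρ * Real.log (wcount P g x) + Real.log Nn - Real.log (n x))
      ≤ Nn * Real.log (valSum P g ρ) := by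
    have hJ := log_jensen (P.image Prod.fst) (fun x => n x / Nn)
      (fun x => (wcount P g x) ^ ρ * Nn / n x)
      (fun x hx => div_nonneg (hnX x hx).le hNpos.le)
      (by rw [← Finset.sum_div, hsumn, div_self hNpos.ne'])
      (fun x hx => div_pos (mul_pos (Real.rpow_pos_of_pos (hF_pos x hx) _) hNpos) (hnX x hx))
    have hsumV : ∑ x ∈ P.image Prod.fst, n x / Nn * ((wcount P g x) ^ ρ * Nn / n x)
        = valSum P g ρ := by
      unfold valSum
      apply Finset.sum_congr rfl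
      intro x hx
      have := (hnX x hx).ne'
      field_simp
    rw [hsumV] at hJ
    have hterm : ∀ x ∈ P.image Prod.fst,
        n x * (ρ * Real.log (wcount P g x) + Real.log Nn - Real.log (n x))
        = Nn * (n x / Nn * Real.log ((wcount P g x) ^ ρ * Nn / n x)) := by
      intro x hx
      have hFx := hF_pos x hx
      rw [Real.log_div (mul_pos (Real.rpow_pos_of_pos hFx _) hNpos).ne' (hnX x hx).ne',
        Real.log_mul (Real.rpow_pos_of_pos hFx _).ne' hNpos.ne', Real.log_rpow hFx]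
      field_simp
    rw [Finset.sum_congr rfl hterm, ← Finset.mul_sum]
    exact mul_le_mul_of_nonneg_left hJ hNpos.le
  have hfibT : ∑ x ∈ P.image Prod.fst, ∑ d ∈ P.filter (fun d => d.1 = x), T d = ∑ d ∈ P, T d :=
    Finset.sum_fiberwise_of_maps_to (fun d hd => Finset.mem_image_of_mem _ hd) _
  have hchain : ρ * ∑ d ∈ P, (k d : ℝ) *
      (a1 * Real.log (m1 d / n d.1) + a2 * Real.log (m2 d / n d.1)
        + a3 * Real.log (m3 d / n d.1) + Real.log (n d.1 / (k d : ℝ)))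
      ≤ Nn * Real.log (valSum P g ρ) := by
    rw [← hT_sum, ← hfibT]
    exact (Finset.sum_le_sum hA).trans hB'
  have hBpos : (0 : ℝ) < (B : ℝ) := by
    have : (0 : ℤ) < B := by linarith
    exact_mod_cast this
  have hlt : ρ * (Nn * Real.log (B : ℝ)) < Nn * Real.log (valSum P g ρ) :=
    lt_of_lt_of_le (mul_lt_mul_of_pos_left hent hρ) hchain
  have hlog : Real.log ((B : ℝ) ^ ρ) < Real.log (valSum P g ρ) := by
    rw [Real.log_rpow hBpos]
    have : Nn * (ρ * Real.log (B : ℝ)) < Nn * Real.log (valSum P g ρ) := by linarith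
    exact lt_of_mul_lt_mul_left this hNpos.le
  exact (Real.log_lt_log_iff (Real.rpow_pos_of_pos hBpos _) hV_pos).mp hlog

end Vale.Agent.Lib.P141
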