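import Mathlib
import Vale.Agent.Lib.P141.WEntropy

namespace Vale.Agent.Lib.P141

open MeasureTheory Filter Topology
open scoped ENNReal NNReal

theorem sum_log_ge (P : Finset (ℤ × ℤ)) (k u v : ℤ × ℤ → ℕ)
    (hu : ∀ d ∈ P, 0 < u d) (hv : ∀ d ∈ P, 0 < v d) (ρn ρd : ℕ) (hρn : 0 < ρn) (hρd : 0 < ρd)
    (h : ρn ^ (∑ d ∈ P, k d) * ∏ d ∈ P, (v d) ^ (k d)
      ≤ ρd ^ (∑ d ∈ P, k d) * ∏ d ∈ P, (u d) ^ (k d)) :
    ((∑ d ∈ P, k d : ℕ) : ℝ) * (Real.log ρn - Real.log ρd)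
      ≤ ∑ d ∈ P, (k d : ℝ) * Real.log ((u d : ℝ) / (v d : ℝ)) := by
  have hR : ((ρn : ℝ)) ^ (∑ d ∈ P, k d) * ∏ d ∈ P, ((v d : ℝ)) ^ (k d)
      ≤ ((ρd : ℝ)) ^ (∑ d ∈ P, k d) * ∏ d ∈ P, ((u d : ℝ)) ^ (k d) := by exact_mod_cast h
  have hρnR : (0 : ℝ) < ρn := by exact_mod_cast hρn
  have hρdR : (0 : ℝ) < ρd := by exact_mod_cast hρd
  have huR : ∀ d ∈ P, (0 : ℝ) < (u d : ℝ) := fun d hd => by exact_mod_cast hu d hd
  have hvR : ∀ d ∈ P, (0 : ℝ) < (v d : ℝ) := fun d hd => by exact_mod_cast hv d hd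
  have hpv : (0 : ℝ) < ∏ d ∈ P, ((v d : ℝ)) ^ (k d) :=
    Finset.prod_pos fun d hd => pow_pos (hvR d hd) _
  have hpu : (0 : ℝ) < ∏ d ∈ P, ((u d : ℝ)) ^ (k d) :=
    Finset.prod_pos fun d hd => pow_pos (huR d hd) _
  have hlog := Real.log_le_log (mul_pos (pow_pos hρnR _) hpv) hR
  rw [Real.log_mul (pow_pos hρnR _).ne' hpv.ne', Real.log_mul (pow_pos hρdR _).ne' hpu.ne',
    Real.log_pow, Real.log_pow, Real.log_prod (fun d hd => (pow_pos (hvR d hd) _).ne'),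
    Real.log_prod (fun d hd => (pow_pos (huR d hd) _).ne')] at hlog
  have e : ∑ d ∈ P, (k d : ℝ) * Real.log ((u d : ℝ) / (v d : ℝ))
      = ∑ d ∈ P, Real.log ((u d : ℝ) ^ (k d)) - ∑ d ∈ P, Real.log ((v d : ℝ) ^ (k d)) := by
    rw [← Finset.sum_sub_distrib]
    apply Finset.sum_congr rfl
    intro d hd
    rw [Real.log_div (huR d hd).ne' (hvR d hd).ne', Real.log_pow, Real.log_pow]
    ring
  rw [e]
  linarith

/-- The criterion in integer form: the four inequalities between products certify lower bounds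
`ρ = ρn/ρd` and `σ = σn/σd` for the geometric means appearing in the entropy criterion, and
`B^num ≤ ρ^den * σ^num` then gives unboundedness for all Hölder tuples with `r < num/den`. -/
theorem unbounded_of_products (B : ℕ) (hB : 2 ≤ B) (P : Finset (ℤ × ℤ)) (hPne : P.Nonempty)
    (k : ℤ × ℤ → ℕ) (hk : ∀ d ∈ P, 0 < k d)
    (hinjx : ∀ d ∈ P, ∀ d' ∈ P, d.1 ≡ d'.1 [ZMOD (B : ℤ)] → d.1 = d'.1)
    (hinjt : ∀ d ∈ P, ∀ d' ∈ P, d.2 ≡ d'.2 [ZMOD (B : ℤ)] → d.2 = d'.2)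
    (ρn ρd σn σd : ℕ) (hρ : ρd < ρn) (hρd : 0 < ρd) (hσn : 0 < σn) (hσd : 0 < σd)
    (h1 : ρn ^ (∑ d ∈ P, k d) * ∏ d ∈ P, (fiberWeight P k 0 d.1) ^ (k d)
      ≤ ρd ^ (∑ d ∈ P, k d) * ∏ d ∈ P, (fiberWeight P k 1 (d.1 - 1 * d.2)) ^ (k d))
    (h2 : ρn ^ (∑ d ∈ P, k d) * ∏ d ∈ P, (fiberWeight P k 0 d.1) ^ (k d)
      ≤ ρd ^ (∑ d ∈ P, k d) * ∏ d ∈ P, (fiberWeight P k 2 (d.1 - 2 * d.2)) ^ (k d))
    (h3 : ρn ^ (∑ d ∈ P, k d) * ∏ d ∈ P, (fiberWeight P k 0 d.1) ^ (k d)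
      ≤ ρd ^ (∑ d ∈ P, k d) * ∏ d ∈ P, (fiberWeight P k 3 (d.1 - 3 * d.2)) ^ (k d))
    (h0 : σn ^ (∑ d ∈ P, k d) * ∏ d ∈ P, (k d) ^ (k d)
      ≤ σd ^ (∑ d ∈ P, k d) * ∏ d ∈ P, (fiberWeight P k 0 d.1) ^ (k d))
    (num den : ℕ) (hnum : 0 < num) (hden : 0 < den)
    (hfin : B ^ num * (ρd ^ den * σd ^ num) ≤ ρn ^ den * σn ^ num)
    (p₁ p₂ p₃ r : ℝ≥0∞) (hH : IsHolderTuple p₁ p₂ p₃ r)
    (hr : r.toReal < (num : ℝ) / (den : ℝ)) : ¬ BoundedAt p₁ p₂ p₃ r := by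
  have hr0 : r ≠ 0 := hH.2.2.2.1.ne'
  have hrtop : r ≠ ⊤ := hH.2.2.2.2.1.ne
  have hρpos : 0 < r.toReal := ENNReal.toReal_pos hr0 hrtop
  have hρn : 0 < ρn := lt_of_le_of_lt (Nat.zero_le _) hρ
  have hBZ : (2 : ℤ) ≤ (B : ℤ) := by exact_mod_cast hB
  apply unbounded_of_entropy (B : ℤ) hBZ P k hk hinjx hinjt p₁ p₂ p₃ r hH
  set a1 : ℝ := (p₁⁻¹).toReal with ha1
  set a2 : ℝ := (p₂⁻¹).toReal with ha2
  set a3 : ℝ := (p₃⁻¹).toReal with ha3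
  have ha1n : 0 ≤ a1 := ENNReal.toReal_nonneg
  have ha2n : 0 ≤ a2 := ENNReal.toReal_nonneg
  have ha3n : 0 ≤ a3 := ENNReal.toReal_nonneg
  have hsum : a1 + a2 + a3 = r.toReal⁻¹ := by
    have := holder_sum hH
    rw [ha1, ha2, ha3, ENNReal.toReal_inv, ENNReal.toReal_inv, ENNReal.toReal_inv, this]
  have hn_pos : ∀ d ∈ P, 0 < fiberWeight P k 0 d.1 := by
    intro d hd
    have := fiberWeight_pos P k hk 0 d hd
    have e : d.1 - 0 * d.2 = d.1 := by ring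
    rwa [e] at this
  have L1 := sum_log_ge P k (fun d => fiberWeight P k 1 (d.1 - 1 * d.2))
    (fun d => fiberWeight P k 0 d.1) (fun d hd => fiberWeight_pos P k hk 1 d hd) hn_pos
    ρn ρd hρn hρd h1
  have L2 := sum_log_ge P k (fun d => fiberWeight P k 2 (d.1 - 2 * d.2))
    (fun d => fiberWeight P k 0 d.1) (fun d hd => fiberWeight_pos P k hk 2 d hd) hn_pos
    ρn ρd hρn hρd h2
  have L3 := sum_log_ge P k (fun d => fiberWeight P k 3 (d.1 - 3 * d.2))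
    (fun d => fiberWeight P k 0 d.1) (fun d hd => fiberWeight_pos P k hk 3 d hd) hn_pos
    ρn ρd hρn hρd h3
  have L0 := sum_log_ge P k (fun d => fiberWeight P k 0 d.1) k hn_pos hk σn σd hσn hσd h0
  have hsplit : ∑ d ∈ P, (k d : ℝ) *
      (a1 * Real.log ((fiberWeight P k 1 (d.1 - 1 * d.2) : ℝ) / (fiberWeight P k 0 d.1 : ℝ))
        + a2 * Real.log ((fiberWeight P k 2 (d.1 - 2 * d.2) : ℝ) / (fiberWeight P k 0 d.1 : ℝ))
        + a3 * Real.log ((fiberWeight P k 3 (d.1 - 3 * d.2) : ℝ) / (fiberWeight P k 0 d.1 : ℝ))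
        + Real.log ((fiberWeight P k 0 d.1 : ℝ) / (k d : ℝ)))
      = a1 * ∑ d ∈ P, (k d : ℝ) * Real.log
          ((fiberWeight P k 1 (d.1 - 1 * d.2) : ℝ) / (fiberWeight P k 0 d.1 : ℝ))
        + a2 * ∑ d ∈ P, (k d : ℝ) * Real.log
          ((fiberWeight P k 2 (d.1 - 2 * d.2) : ℝ) / (fiberWeight P k 0 d.1 : ℝ))
        + a3 * ∑ d ∈ P, (k d : ℝ) * Real.log
          ((fiberWeight P k 3 (d.1 - 3 * d.2) : ℝ) / (fiberWeight P k 0 d.1 : ℝ))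
        + ∑ d ∈ P, (k d : ℝ) * Real.log ((fiberWeight P k 0 d.1 : ℝ) / (k d : ℝ)) := by
    rw [Finset.mul_sum, Finset.mul_sum, Finset.mul_sum, ← Finset.sum_add_distrib,
      ← Finset.sum_add_distrib, ← Finset.sum_add_distrib]
    apply Finset.sum_congr rfl
    intro d _
    ring
  rw [hsplit]
  generalize (∑ d ∈ P, (k d : ℝ) * Real.log
    ((fiberWeight P k 1 (d.1 - 1 * d.2) : ℝ) / (fiberWeight P k 0 d.1 : ℝ))) = S1 at L1 ⊢
  generalize (∑ d ∈ P, (k d : ℝ) * Real.log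
    ((fiberWeight P k 2 (d.1 - 2 * d.2) : ℝ) / (fiberWeight P k 0 d.1 : ℝ))) = S2 at L2 ⊢
  generalize (∑ d ∈ P, (k d : ℝ) * Real.log
    ((fiberWeight P k 3 (d.1 - 3 * d.2) : ℝ) / (fiberWeight P k 0 d.1 : ℝ))) = S3 at L3 ⊢
  generalize (∑ d ∈ P, (k d : ℝ) * Real.log ((fiberWeight P k 0 d.1 : ℝ) / (k d : ℝ))) = S0
    at L0 ⊢
  have hNnpos : (0 : ℝ) < ((∑ d ∈ P, k d : ℕ) : ℝ) := total_pos P k hPne hk
  generalize ((∑ d ∈ P, k d : ℕ) : ℝ) = Nn at L0 L1 L2 L3 hNnpos ⊢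
  -- the logarithms of the rational bounds
  have hρnR : (0 : ℝ) < (ρn : ℝ) := by exact_mod_cast hρn
  have hρdR : (0 : ℝ) < (ρd : ℝ) := by exact_mod_cast hρd
  have hσnR : (0 : ℝ) < (σn : ℝ) := by exact_mod_cast hσn
  have hσdR : (0 : ℝ) < (σd : ℝ) := by exact_mod_cast hσd
  have hBR : (0 : ℝ) < (B : ℝ) := by
    have : 0 < B := by omega
    exact_mod_cast this
  have hlρpos : 0 < Real.log ρn - Real.log ρd := by
    have : (ρd : ℝ) < (ρn : ℝ) := by exact_mod_cast hρ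
    have := Real.log_lt_log hρdR this
    linarith
  have hfinR : (B : ℝ) ^ num * ((ρd : ℝ) ^ den * (σd : ℝ) ^ num)
      ≤ (ρn : ℝ) ^ den * (σn : ℝ) ^ num := by exact_mod_cast hfin
  have hlogfin := Real.log_le_log (by positivity) hfinR
  rw [Real.log_mul (by positivity) (by positivity), Real.log_mul (by positivity) (by positivity),
    Real.log_mul (by positivity) (by positivity), Real.log_pow, Real.log_pow, Real.log_pow,
    Real.log_pow, Real.log_pow] at hlogfin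
  have hkey : (num : ℝ) * Real.log (B : ℝ)
      ≤ (den : ℝ) * (Real.log ρn - Real.log ρd) + (num : ℝ) * (Real.log σn - Real.log σd) := by
    linarith
  generalize Real.log ρn - Real.log ρd = lρ at L1 L2 L3 hlρpos hkey
  generalize Real.log σn - Real.log σd = lσ at L0 hkey
  have hnumR : (0 : ℝ) < (num : ℝ) := by exact_mod_cast hnum
  have hdenR : (0 : ℝ) < (den : ℝ) := by exact_mod_cast hden
  have hinv : (den : ℝ) / (num : ℝ) < r.toReal⁻¹ := by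
    rw [lt_inv_comm₀ (div_pos hdenR hnumR) hρpos, inv_div]
    exact hr
  have hlogB : Real.log (B : ℝ) < r.toReal⁻¹ * lρ + lσ := by
    have h1' : Real.log (B : ℝ) ≤ (den : ℝ) / (num : ℝ) * lρ + lσ := by
      have e : Real.log (B : ℝ) = ((num : ℝ) * Real.log (B : ℝ)) / (num : ℝ) := by
        field_simp
      rw [e, div_le_iff₀ hnumR]
      have e2 : ((den : ℝ) / (num : ℝ) * lρ + lσ) * (num : ℝ)
          = (den : ℝ) * lρ + (num : ℝ) * lσ := by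
        field_simp
      rw [e2]
      exact hkey
    have h2' : (den : ℝ) / (num : ℝ) * lρ < r.toReal⁻¹ * lρ :=
      mul_lt_mul_of_pos_right hinv hlρpos
    linarith
  have e1 := mul_le_mul_of_nonneg_left L1 ha1n
  have e2 := mul_le_mul_of_nonneg_left L2 ha2n
  have e3 := mul_le_mul_of_nonneg_left L3 ha3n
  have hmain : Nn * Real.log (B : ℝ) < Nn * (r.toReal⁻¹ * lρ + lσ) :=
    mul_lt_mul_of_pos_left hlogB hNnpos
  have hexp : Nn * (r.toReal⁻¹ * lρ + lσ)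
      = a1 * (Nn * lρ) + a2 * (Nn * lρ) + a3 * (Nn * lρ) + Nn * lσ := by
    rw [← hsum]
    ring
  rw [Int.cast_natCast]
  linarith

end Vale.Agent.Lib.P141
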