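import Mathlib
import Vale.Agent.Lib.P141.WProducts

namespace Vale.Agent.Lib.P141

open scoped ENNReal

/-- the 48 progressions `(x, t)` of an explicit weighted configuration in base 21: the first
terms run through `0, ..., 20` -/
def P21 : Finset (ℤ × ℤ) :=
  {
    (0, 1), (1, 0), (1, 2), (2, 1), (2, 3), (3, 2), (3, 4), (4, 1),
    (4, 3), (4, 5), (5, 2), (5, 4), (5, 6), (6, 3), (6, 5), (7, 4),
    (7, 6), (8, 3), (8, 5), (8, 7), (9, 4), (9, 6), (9, 8), (10, 5),
    (10, 7), (11, 4), (11, 6), (11, 8), (12, 5), (12, 7), (12, 9), (13, 6),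
    (13, 8), (14, 7), (14, 9), (15, 6), (15, 8), (15, 10), (16, 7), (16, 9),
    (16, 11), (17, 8), (17, 10), (18, 9), (18, 11), (19, 10), (19, 12), (20, 11)}

/-- the integer weights of the explicit configuration; their sum is 100001 -/
def k21 : ℤ × ℤ → ℕ := fun d =>
    if d = (0, 1) then 3598
    else if d = (1, 0) then 11
    else if d = (1, 2) then 3929
    else if d = (2, 1) then 279
    else if d = (2, 3) then 3483
    else if d = (3, 2) then 3127
    else if d = (3, 4) then 1219
    else if d = (4, 1) then 2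
    else if d = (4, 3) then 4765
    else if d = (4, 5) then 208
    else if d = (5, 2) then 93
    else if d = (5, 4) then 4878
    else if d = (5, 6) then 24
    else if d = (6, 3) then 1947
    else if d = (6, 5) then 3185
    else if d = (7, 4) then 4174
    else if d = (7, 6) then 1038
    else if d = (8, 3) then 20
    else if d = (8, 5) then 5601
    else if d = (8, 7) then 156
    else if d = (9, 4) then 734
    else if d = (9, 6) then 4826
    else if d = (9, 8) then 3
    else if d = (10, 5) then 2700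
    else if d = (10, 7) then 2700
    else if d = (11, 4) then 3
    else if d = (11, 6) then 4826
    else if d = (11, 8) then 734
    else if d = (12, 5) then 156
    else if d = (12, 7) then 5601
    else if d = (12, 9) then 20
    else if d = (13, 6) then 1038
    else if d = (13, 8) then 4174
    else if d = (14, 7) then 3185
    else if d = (14, 9) then 1948
    else if d = (15, 6) then 24
    else if d = (15, 8) then 4878
    else if d = (15, 10) then 93
    else if d = (16, 7) then 208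
    else if d = (16, 9) then 4765
    else if d = (16, 11) then 2
    else if d = (17, 8) then 1219
    else if d = (17, 10) then 3127
    else if d = (18, 9) then 3483
    else if d = (18, 11) then 279
    else if d = (19, 10) then 3929
    else if d = (19, 12) then 11
    else if d = (20, 11) then 3598
    else 0

theorem P21_ne : P21.Nonempty := ⟨(0, 1), by decide +kernel⟩

theorem k21_pos : ∀ d ∈ P21, 0 < k21 d := by decide +kernel

theorem P21_injx : ∀ d ∈ P21, ∀ d' ∈ P21, d.1 ≡ d'.1 [ZMOD ((21 : ℕ) : ℤ)] → d.1 = d'.1 := by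
  decide +kernel

theorem P21_injt : ∀ d ∈ P21, ∀ d' ∈ P21, d.2 ≡ d'.2 [ZMOD ((21 : ℕ) : ℤ)] → d.2 = d'.2 := by
  decide +kernel

theorem P21_h1 : 1761847 ^ (∑ d ∈ P21, k21 d) * ∏ d ∈ P21, (fiberWeight P21 k21 0 d.1) ^ (k21 d)
    ≤ 500000 ^ (∑ d ∈ P21, k21 d)
      * ∏ d ∈ P21, (fiberWeight P21 k21 1 (d.1 - 1 * d.2)) ^ (k21 d) := by
  decide +kernel

theorem P21_h2 : 1761847 ^ (∑ d ∈ P21, k21 d) * ∏ d ∈ P21, (fiberWeight P21 k21 0 d.1) ^ (k21 d)
    ≤ 500000 ^ (∑ d ∈ P21, k21 d)
      * ∏ d ∈ P21, (fiberWeight P21 k21 2 (d.1 - 2 * d.2)) ^ (k21 d) := by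
  decide +kernel

theorem P21_h3 : 1761847 ^ (∑ d ∈ P21, k21 d) * ∏ d ∈ P21, (fiberWeight P21 k21 0 d.1) ^ (k21 d)
    ≤ 500000 ^ (∑ d ∈ P21, k21 d)
      * ∏ d ∈ P21, (fiberWeight P21 k21 3 (d.1 - 3 * d.2)) ^ (k21 d) := by
  decide +kernel

theorem P21_h0 : 689527 ^ (∑ d ∈ P21, k21 d) * ∏ d ∈ P21, (k21 d) ^ (k21 d)
    ≤ 500000 ^ (∑ d ∈ P21, k21 d) * ∏ d ∈ P21, (fiberWeight P21 k21 0 d.1) ^ (k21 d) := by
  decide +kernel

theorem P21_fin : 21 ^ 37 * (500000 ^ 80 * 500000 ^ 37) ≤ 1761847 ^ 80 * 689527 ^ 37 := by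
  decide +kernel

/-- The trilinear Hilbert transform is not bounded at any Hölder tuple with `r < 37/80`. -/
theorem unbounded_below (p₁ p₂ p₃ r : ℝ≥0∞) (hH : IsHolderTuple p₁ p₂ p₃ r)
    (hr : r.toReal < 37 / 80) : ¬ BoundedAt p₁ p₂ p₃ r := by
  have hr' : r.toReal < ((37 : ℕ) : ℝ) / ((80 : ℕ) : ℝ) := by
    push_cast
    exact hr
  exact unbounded_of_products 21 (by norm_num) P21 P21_ne k21 k21_pos P21_injx P21_injt
    1761847 500000 689527 500000 (by norm_num) (by norm_num) (by norm_num) (by norm_num)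
    P21_h1 P21_h2 P21_h3 P21_h0 37 80 (by norm_num) (by norm_num) P21_fin p₁ p₂ p₃ r hH hr'

end Vale.Agent.Lib.P141
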